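import Vale.Agent.P141.H352.Flow

/-!
# P141, line (A): charges on a packed family of cubes

`Q k m` : the cube `m` of scale `k` is affected; `cnt N Q k p` : number of affected cubes over the
point `p`, scales `k .. N`; packing: over every cube the total volume of the affected cubes is at
most `cP` times its volume.

* `tail_decay` : the affected cubes with at least `A` affected ancestors have the volume
  `(1 - 1 / cP) ^ A * cP * 8 ^ N`;
* `charge_le` : `∑ w k p` over the affected cubes is at most `A e ∑ G0 + T (1 - 1 / cP) ^ A cP 8 ^ N`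
  when on every cube `∑ w k ≤ e ∑ G0` and `∑ w k ≤ T 8 ^ k`.
-/

namespace Vale.Agent.P141.H277

open Finset
open Vale.Agent.P141.PL (Pt ix ix_ix cb cx mem_cb card_cb)
open Vale.Agent.P141.PL.H560 (cbs)

noncomputable section

open scoped Classical

variable {N : ℕ} {Q : ℕ → Pt → Prop}

/-- number of the affected cubes of the scales `k .. N` over the point `p` -/
def cnt (N : ℕ) (Q : ℕ → Pt → Prop) (k : ℕ) (p : Pt) : ℕ :=
  ((Icc k N).filter fun j => Q j (cx j p)).card

theorem cnt_top (p : Pt) : cnt N Q (N + 1) p = 0 := by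
  unfold cnt
  rw [Icc_eq_empty (by omega), filter_empty, card_empty]

theorem cnt_succ {k : ℕ} (hk : k ≤ N) (p : Pt) :
    cnt N Q k p = cnt N Q (k + 1) p + if Q k (cx k p) then 1 else 0 := by
  unfold cnt
  have e : Icc k N = insert k (Icc (k + 1) N) := by
    ext j
    simp only [mem_Icc, mem_insert]
    omega
  rw [e, filter_insert]
  split_ifs with h
  · rw [card_insert_of_notMem (by simp)]
  · rfl

theorem cnt_anti {k l : ℕ} (h : k ≤ l) (p : Pt) : cnt N Q l p ≤ cnt N Q k p := by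
  unfold cnt
  refine card_le_card (filter_subset_filter _ fun j hj => ?_)
  rw [mem_Icc] at hj ⊢
  omega

theorem cx_le {k l : ℕ} (h : k ≤ l) {p p' : Pt} (e : cx k p = cx k p') : cx l p = cx l p' := by
  have h1 : ∀ z : ℤ, ix l z = ix (l - k) (ix k z) := fun z => by
    rw [ix_ix, Nat.add_sub_cancel' h]
  have e1 : ix k p.1 = ix k p'.1 := congrArg Prod.fst e
  have e2 : ix k p.2.1 = ix k p'.2.1 := congrArg (fun q : Pt => q.2.1) e
  have e3 : ix k p.2.2 = ix k p'.2.2 := congrArg (fun q : Pt => q.2.2) e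
  unfold PL.cx
  rw [h1 p.1, h1 p.2.1, h1 p.2.2, e1, e2, e3, ← h1, ← h1, ← h1]

theorem cnt_cx {k l : ℕ} (h : k ≤ l) {p p' : Pt} (e : cx k p = cx k p') :
    cnt N Q l p = cnt N Q l p' := by
  unfold cnt
  refine congrArg card (filter_congr fun j hj => ?_)
  rw [cx_le (h.trans (mem_Icc.1 hj).1) e]

/-- an affected cube with at least `A` affected ancestors lies in one with exactly `A` -/
theorem exists_anc {k A : ℕ} (hk : k ≤ N) {p : Pt} (hq : Q k (cx k p)) (hA : A ≤ cnt N Q (k + 1) p) :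
    ∃ k', k ≤ k' ∧ k' ≤ N ∧ Q k' (cx k' p) ∧ cnt N Q (k' + 1) p = A := by
  -- the largest scale with more than `A` affected cubes over it
  have h0 : A + 1 ≤ cnt N Q k p := by
    rw [cnt_succ hk, if_pos hq]
    omega
  obtain ⟨k', hk', hmax⟩ : ∃ k', (k ≤ k' ∧ k' ≤ N ∧ A + 1 ≤ cnt N Q k' p) ∧
      ∀ j, (k ≤ j ∧ j ≤ N ∧ A + 1 ≤ cnt N Q j p) → j ≤ k' := by
    have hne : ((Icc k N).filter fun j => A + 1 ≤ cnt N Q j p).Nonempty :=
      ⟨k, mem_filter.2 ⟨mem_Icc.2 ⟨le_rfl, hk⟩, h0⟩⟩
    have hm := mem_filter.1 (max'_mem _ hne)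
    have hm1 := mem_Icc.1 hm.1
    refine ⟨_, ⟨hm1.1, hm1.2, hm.2⟩, fun j hj => le_max' _ j ?_⟩
    exact mem_filter.2 ⟨mem_Icc.2 ⟨hj.1, hj.2.1⟩, hj.2.2⟩
  have h1 : cnt N Q (k' + 1) p ≤ A := by
    by_contra hcon
    have h2 : k' + 1 ≤ N := by
      by_contra h3
      have : k' = N := by omega
      rw [this, cnt_top] at hcon
      omega
    have := hmax (k' + 1) ⟨by omega, h2, by omega⟩
    omega
  have h2 := cnt_succ (Q := Q) hk'.2.1 p
  by_cases hq' : Q k' (cx k' p)
  · rw [if_pos hq'] at h2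
    refine ⟨k', hk'.1, hk'.2.1, hq', ?_⟩
    omega
  · rw [if_neg hq'] at h2
    omega

/-- few affected cubes with less than `A` affected ancestors -/
theorem card_head (A : ℕ) (p : Pt) :
    (((range (N + 1)).filter fun k => Q k (cx k p) ∧ cnt N Q (k + 1) p < A).card : ℝ) ≤ A := by
  have h : ((range (N + 1)).filter fun k => Q k (cx k p) ∧ cnt N Q (k + 1) p < A).card ≤
      (range A).card := by
    refine card_le_card_of_injOn (fun k => cnt N Q (k + 1) p) (fun k hk => ?_) ?_
    · simp only [coe_filter, Set.mem_ofPred_eq] at hk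
      simp only [coe_range, Set.mem_Iio]
      exact hk.2.2
    · intro i hi j hj hij
      simp only [coe_filter, Set.mem_ofPred_eq, mem_range] at hi hj
      beta_reduce at hij
      rcases lt_trichotomy i j with h | h | h
      · have h1 := cnt_anti (N := N) (Q := Q) (show i + 1 ≤ j from h) p
        have h2 := cnt_succ (Q := Q) (show j ≤ N by omega) p
        rw [if_pos hj.2.1] at h2
        omega
      · exact h
      · have h1 := cnt_anti (N := N) (Q := Q) (show j + 1 ≤ i from h) p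
        have h2 := cnt_succ (Q := Q) (show i ≤ N by omega) p
        rw [if_pos hi.2.1] at h2
        omega
  rw [card_range] at h
  exact_mod_cast h

/-- comparison cell by cell under a condition on the cells -/
theorem cell_le {k : ℕ} (hk : k ≤ N) (R : Pt) {C : Pt → Prop} [DecidablePred C]
    (hC : ∀ p p' : Pt, cx k p = cx k p' → (C p ↔ C p')) {f g : Pt → ℝ}
    (h : ∀ m ∈ cbs N R k, ∑ p ∈ cb k m, f p ≤ ∑ p ∈ cb k m, g p) :
    ∑ p ∈ cb N R, (if C p then f p else 0) ≤ ∑ p ∈ cb N R, if C p then g p else 0 := by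
  rw [H352.cb_part hk R, H352.cb_part hk R]
  refine sum_le_sum fun m hm => ?_
  by_cases hc : ∃ p ∈ cb k m, C p
  · obtain ⟨p0, h0, h1⟩ := hc
    have e : ∀ p ∈ cb k m, C p := fun p hp =>
      (hC p0 p ((mem_cb.1 h0).trans (mem_cb.1 hp).symm)).1 h1
    rw [sum_congr rfl fun p hp => if_pos (e p hp), sum_congr rfl fun p hp => if_pos (e p hp)]
    exact h m hm
  · push Not at hc
    rw [sum_congr rfl fun p hp => if_neg (hc p hp), sum_congr rfl fun p hp => if_neg (hc p hp)]

/-- the affected cubes over `p` with at least `A` affected ancestors -/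
def tl (N : ℕ) (Q : ℕ → Pt → Prop) (A : ℕ) (p : Pt) : ℝ :=
  ∑ k ∈ range (N + 1), if Q k (cx k p) ∧ A ≤ cnt N Q (k + 1) p then 1 else 0

/-- the packing condition over every cube -/
def Pack (N : ℕ) (Q : ℕ → Pt → Prop) (R : Pt) (cP : ℝ) : Prop :=
  ∀ K ≤ N, ∀ m ∈ cbs N R K,
    ∑ p ∈ cb K m, (∑ k ∈ range (K + 1), if Q k (cx k p) then (1 : ℝ) else 0) ≤ cP * 8 ^ K

theorem tl_step {R : Pt} {cP : ℝ} (h : Pack N Q R cP) (A : ℕ) :
    ∑ p ∈ cb N R, tl N Q A p ≤ cP * (∑ p ∈ cb N R, tl N Q A p - ∑ p ∈ cb N R, tl N Q (A + 1) p) := by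
  -- the difference is the layer `A`
  have e1 : ∑ p ∈ cb N R, tl N Q A p - ∑ p ∈ cb N R, tl N Q (A + 1) p =
      ∑ k ∈ range (N + 1), ∑ p ∈ cb N R,
        if Q k (cx k p) ∧ cnt N Q (k + 1) p = A then (1 : ℝ) else 0 := by
    rw [← sum_sub_distrib, sum_comm]
    refine sum_congr rfl fun p _ => ?_
    unfold tl
    rw [← sum_sub_distrib]
    refine sum_congr rfl fun k _ => ?_
    by_cases hq : Q k (cx k p)
    · rcases lt_trichotomy (cnt N Q (k + 1) p) A with h1 | h1 | h1
      · rw [if_neg (by omega), if_neg (by omega), if_neg (by omega), sub_zero]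
      · rw [if_pos ⟨hq, by omega⟩, if_neg (by omega), if_pos ⟨hq, h1⟩, sub_zero]
      · rw [if_pos ⟨hq, by omega⟩, if_pos ⟨hq, by omega⟩, if_neg (by omega), sub_self]
    · simp [hq]
  -- every cube of the tail lies in a cube of the layer
  have e2 : ∀ p, tl N Q A p ≤ ∑ k' ∈ range (N + 1),
      if Q k' (cx k' p) ∧ cnt N Q (k' + 1) p = A then
        (∑ k ∈ range (k' + 1), if Q k (cx k p) then (1 : ℝ) else 0) else 0 := by
    intro p
    have h1 : ∀ k ∈ range (N + 1), (if Q k (cx k p) ∧ A ≤ cnt N Q (k + 1) p then (1 : ℝ) else 0) ≤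
        ∑ k' ∈ range (N + 1), if Q k' (cx k' p) ∧ cnt N Q (k' + 1) p = A then
          (if k ∈ range (k' + 1) ∧ Q k (cx k p) then (1 : ℝ) else 0) else 0 := by
      intro k hk
      split_ifs with hc
      · obtain ⟨k', a1, a2, a3, a4⟩ := exists_anc (by have := mem_range.1 hk; omega) hc.1 hc.2
        have hm : k' ∈ range (N + 1) := mem_range.2 (by omega)
        refine le_trans (le_of_eq ?_) (single_le_sum (f := fun k' =>
          if Q k' (cx k' p) ∧ cnt N Q (k' + 1) p = A then
            (if k ∈ range (k' + 1) ∧ Q k (cx k p) then (1 : ℝ) else 0) else 0)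
          (fun i _ => by split_ifs <;> norm_num) hm)
        rw [if_pos ⟨a3, a4⟩, if_pos ⟨mem_range.2 (by omega), hc.1⟩]
      · exact sum_nonneg fun i _ => by split_ifs <;> norm_num
    refine (sum_le_sum h1).trans (le_of_eq ?_)
    rw [sum_comm]
    refine sum_congr rfl fun k' hk' => ?_
    split_ifs with hc
    · have e3 : ∀ k, (if k ∈ range (k' + 1) ∧ Q k (cx k p) then (1 : ℝ) else 0) =
          if k ∈ range (k' + 1) then (if Q k (cx k p) then (1 : ℝ) else 0) else 0 := by
        intro k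
        by_cases a : k ∈ range (k' + 1) <;> by_cases b : Q k (cx k p) <;> simp [a, b]
      rw [sum_congr rfl fun k _ => e3 k, ← sum_filter]
      refine sum_congr ?_ fun _ _ => rfl
      ext k
      simp only [mem_filter, mem_range]
      have := mem_range.1 hk'
      omega
    · exact sum_const_zero
  rw [e1, mul_sum]
  refine (sum_le_sum fun p _ => e2 p).trans ?_
  rw [sum_comm]
  refine sum_le_sum fun k' hk' => ?_
  have hk2 : k' ≤ N := by have := mem_range.1 hk'; omega
  rw [mul_sum]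
  have h3 := cell_le (N := N) hk2 R
    (C := fun p => Q k' (cx k' p) ∧ cnt N Q (k' + 1) p = A)
    (f := fun p => ∑ k ∈ range (k' + 1), if Q k (cx k p) then (1 : ℝ) else 0) (g := fun _ => cP)
    (fun p p' e => by rw [e, cnt_cx (Nat.le_succ k') e])
    (fun m hm => by
      refine (h k' hk2 m hm).trans (le_of_eq ?_)
      rw [sum_const, card_cb, nsmul_eq_mul]
      push_cast
      ring)
  refine h3.trans (le_of_eq (sum_congr rfl fun p _ => ?_))
  split_ifs <;> simp

/-- **Geometric decay of the tail.** -/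
theorem tail_decay {R : Pt} {cP : ℝ} (hc : 1 ≤ cP) (h : Pack N Q R cP) (A : ℕ) :
    ∑ p ∈ cb N R, tl N Q A p ≤ (1 - 1 / cP) ^ A * (cP * 8 ^ N) := by
  have hc0 : 0 < cP := by linarith
  have q0 : 0 ≤ 1 - 1 / cP := by
    rw [sub_nonneg, div_le_one hc0]
    exact hc
  induction A with
  | zero =>
    rw [pow_zero, one_mul]
    have h1 := h N le_rfl R (by
      unfold PL.H560.cbs
      simp only [Nat.sub_self, mem_product, PL.mem_iv]
      unfold PL.ix
      simp)
    refine le_trans (le_of_eq (sum_congr rfl fun p _ => ?_)) h1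
    unfold tl
    refine sum_congr rfl fun k _ => ?_
    simp
  | succ A ih =>
    have h1 := tl_step h A
    set X := ∑ p ∈ cb N R, tl N Q A p with hX
    set Y := ∑ p ∈ cb N R, tl N Q (A + 1) p with hY
    have h2 : Y ≤ (1 - 1 / cP) * X := by
      have h3 : 1 / cP * X ≤ X - Y := by
        rw [div_mul_eq_mul_div, one_mul, div_le_iff₀ hc0]
        linarith
      linarith
    refine h2.trans ?_
    rw [pow_succ, mul_comm ((1 - 1 / cP) ^ A), mul_assoc]
    exact mul_le_mul_of_nonneg_left ih q0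

/-- **Charges on the affected cubes.** -/
theorem charge_le {R : Pt} {cP e T : ℝ} (hc : 1 ≤ cP) (h : Pack N Q R cP) (he : 0 ≤ e)
    {w : ℕ → Pt → ℝ} {G0 : Pt → ℝ} (hG : ∀ p, 0 ≤ G0 p) (hT0 : 0 ≤ T)
    (hH : ∀ k ≤ N, ∀ m ∈ cbs N R k, Q k m → ∑ p ∈ cb k m, w k p ≤ e * ∑ p ∈ cb k m, G0 p)
    (hT : ∀ k ≤ N, ∀ m ∈ cbs N R k, Q k m → ∑ p ∈ cb k m, w k p ≤ T * 8 ^ k) (A : ℕ) :
    ∑ p ∈ cb N R, ∑ k ∈ range (N + 1), (if Q k (cx k p) then w k p else 0) ≤
      A * (e * ∑ p ∈ cb N R, G0 p) + T * ((1 - 1 / cP) ^ A * (cP * 8 ^ N)) := by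
  -- one scale
  have one : ∀ k ∈ range (N + 1), ∑ p ∈ cb N R, (if Q k (cx k p) then w k p else 0) ≤
      ∑ p ∈ cb N R, (if Q k (cx k p) ∧ cnt N Q (k + 1) p < A then e * G0 p else 0) +
      ∑ p ∈ cb N R, (if Q k (cx k p) ∧ A ≤ cnt N Q (k + 1) p then T else 0) := by
    intro k hk
    have hkN : k ≤ N := by have := mem_range.1 hk; omega
    have e1 : ∀ p, (if Q k (cx k p) then w k p else 0) =
        (if Q k (cx k p) ∧ cnt N Q (k + 1) p < A then (if Q k (cx k p) then w k p else 0) else 0) +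
        (if Q k (cx k p) ∧ A ≤ cnt N Q (k + 1) p then (if Q k (cx k p) then w k p else 0)
          else 0) := by
      intro p
      by_cases hq : Q k (cx k p)
      · rcases lt_or_ge (cnt N Q (k + 1) p) A with h1 | h1
        · rw [if_pos hq, if_pos ⟨hq, h1⟩, if_neg (by omega), add_zero]
        · rw [if_pos hq, if_neg (by omega), if_pos ⟨hq, h1⟩, zero_add]
      · simp [hq]
    rw [sum_congr rfl fun p _ => e1 p, sum_add_distrib]
    have key : ∀ {f : Pt → ℝ} (hf : ∀ p, 0 ≤ f p),
        (∀ m ∈ cbs N R k, Q k m → ∑ p ∈ cb k m, w k p ≤ ∑ p ∈ cb k m, f p) →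
        ∀ m ∈ cbs N R k, ∑ p ∈ cb k m, (if Q k (cx k p) then w k p else 0) ≤
          ∑ p ∈ cb k m, f p := by
      intro f hf hh m hm
      by_cases hq : Q k m
      · refine le_trans (le_of_eq (sum_congr rfl fun p hp => ?_)) (hh m hm hq)
        rw [if_pos (by rw [mem_cb.1 hp]; exact hq)]
      · refine le_trans (le_of_eq (sum_eq_zero fun p hp => ?_)) (sum_nonneg fun p _ => hf p)
        rw [if_neg (by rw [mem_cb.1 hp]; exact hq)]
    refine add_le_add ?_ ?_
    · refine cell_le (N := N) hkN R (C := fun p => Q k (cx k p) ∧ cnt N Q (k + 1) p < A)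
        (fun p p' e => by rw [e, cnt_cx (Nat.le_succ k) e])
        (key (fun p => mul_nonneg he (hG p)) fun m hm hq => ?_)
      rw [← mul_sum]
      exact hH k hkN m hm hq
    · refine cell_le (N := N) hkN R (C := fun p => Q k (cx k p) ∧ A ≤ cnt N Q (k + 1) p)
        (fun p p' e => by rw [e, cnt_cx (Nat.le_succ k) e])
        (key (fun _ => hT0) fun m hm hq => ?_)
      refine (hT k hkN m hm hq).trans (le_of_eq ?_)
      rw [sum_const, card_cb, nsmul_eq_mul]
      push_cast
      ring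
  rw [sum_comm]
  refine (sum_le_sum one).trans ?_
  rw [sum_add_distrib]
  refine add_le_add ?_ ?_
  · rw [sum_comm, mul_sum, mul_sum]
    refine sum_le_sum fun p _ => ?_
    rw [← sum_filter, sum_const, nsmul_eq_mul]
    exact mul_le_mul_of_nonneg_right (card_head A p) (mul_nonneg he (hG p))
  · rw [sum_comm]
    have e3 : ∑ p ∈ cb N R, ∑ k ∈ range (N + 1),
        (if Q k (cx k p) ∧ A ≤ cnt N Q (k + 1) p then T else 0) =
        T * ∑ p ∈ cb N R, tl N Q A p := by
      rw [mul_sum]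
      refine sum_congr rfl fun p _ => ?_
      unfold tl
      rw [mul_sum]
      refine sum_congr rfl fun k _ => ?_
      split_ifs <;> simp
    rw [e3]
    exact mul_le_mul_of_nonneg_left (tail_decay hc h A) hT0

end

end Vale.Agent.P141.H277
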