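import Vale.Agent.P141.H186.PartS
import Vale.Agent.P141.H677.SlotX
import Vale.Agent.P141.H747.StageM

/-!
# P141, line A, flow part: the three pair statements about one slot

Letters of `H186.PS` (`SlotSt`, `PartS`), of `H747.StageM` (`MA`, `MB`, `MC`) and of
`H677.SlotX` (`NumX`). The third family is divided by `√ez`, the weight of the stack is
`ε = m ^ (1 / 4)`, the cap of `A`, `b` on the grids is `τ = √(4 th ^ 2)`.

* `PhiZ` : hub `x3`, the pair `(A, C~)`, raw partner; `PhiX` : hub `x1`, the pair `(b, C~)`, raw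
  partner; `PhiC` : hub `x1`, both saturated, crude;
* `PhiN` : the numbers of the slot (`H677.Sk.SlotNum`);
* monotonicity in the constant.
-/

namespace Vale.Agent.P141.H277.Phi

open Finset Matrix
open Vale.Agent.P141.PL (Pt iv hs ix mem_iv ix_ix cb mem_cb cx card_iv)
open Vale.Agent.P141.PL.H315 (Tri)
open Vale.Agent.P141.H958 (lbs)
open Vale.Agent.P141.H581 (RX)
open Vale.Agent.P141.H747 (sL sG MA MB MC)
open Vale.Agent.P141.H677 Vale.Agent.P141.H677.Sk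
open Vale.Agent.P141.H186.PS

noncomputable section

open scoped Classical

set_option linter.unusedVariables false

/-- the logarithm -/
def lgS (q : H401.Num) (r κ : ℝ) : ℝ := 1 + Real.log κ + Real.log (r / q.t)

/-- the masses, with a fixed power of the logarithm and of `t ^ (-(c + d))` -/
def MM (q : H401.Num) (s r κ : ℝ) (K : ℕ) : ℝ :=
  lgS q r κ ^ 64 * (q.t ^ (-(64 * (q.c + q.d))) * s * 8 ^ K)

/-- the heights -/
def HH (q : H401.Num) (r κ X : ℝ) : ℝ := (X * κ * (r / q.t)) ^ ⌈X⌉₊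

/-- the cap on the grids -/
def tS (q : H401.Num) (s r : ℝ) : ℝ := √(4 * q.th s r ^ 2)

/-- the third family divided by `√ez` -/
def Cz {ι : Type} (ez : ℝ) (C : FamV ι) : FamV ι := fun x0 k z x => (√ez)⁻¹ • C x0 k z x

/-- **Hub `x3`, the pair `(A, C~)`, raw partner.** -/
def PhiZ : SlotSt := fun ι _ _ q _n ez _F1 _F2 _F3 _o K x s r _U _g _u _v A b' C' R κ _E h j e X =>
  0 < ez → ∀ m N0 : ℝ, 0 < m → m ≤ 1 → 0 ≤ N0 → NumX K (cx K x) R C' h (N0 * (ez * m)) →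
  ∀ t' ∈ rt (cx K x), ∀ (Lb : ℕ) (eb : ι ⊕ ι → ℤ), Function.Injective eb → (∀ i, eb i ∈ lbs Lb) →
  ∃ Es EA : ℝ, 0 ≤ Es ∧ 0 ≤ EA ∧ Es ≤ X * (N0 + MM q s r κ K) * √m ∧
    EA ≤ X * (N0 + MM q s r κ K) ∧
    ∀ z, m ^ (1 / 4 : ℝ) * tS q s r ≤ z →
      RX (iv K t') (K + Lb) (fun x0 => sL Lb (sG K (cx K x) (-x0) h j e)) z (tS q s r)
        (MC K (cx K x) R (Cz ez C') Lb eb (m ^ (1 / 4 : ℝ)) h) (MA K (cx K x) A Lb h) ≤
      4 ^ Lb * (X * (1 + Real.log (HH q r κ X / m)) ^ 3 *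
        (√(z ^ 2 * Es * (tS q s r ^ 2 * EA)) + tS q s r ^ 2 * Es))

/-- **Hub `x1`, the pair `(b, C~)`, raw partner.** -/
def PhiX : SlotSt := fun ι _ _ q _n ez _F1 _F2 _F3 _o K x s r _U _g _u _v A b' C' R κ _E h j e X =>
  0 < ez → ∀ m N0 : ℝ, 0 < m → m ≤ 1 → 0 ≤ N0 → NumX K (cx K x) R C' h (N0 * (ez * m)) →
  ∀ t' ∈ rt (cx K x), ∀ (Lb : ℕ) (eb : ι ⊕ ι → ℤ), Function.Injective eb → (∀ i, eb i ∈ lbs Lb) →
  ∃ Es EV : ℝ, 0 ≤ Es ∧ 0 ≤ EV ∧ Es ≤ X * (N0 + MM q s r κ K) * √m ∧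
    EV * √m ≤ X * (N0 + MM q s r κ K) ∧
    ∀ z, m ^ (1 / 4 : ℝ) * tS q s r ≤ z →
      RX (iv K t') (K + Lb) (fun x0 => sL Lb (sG K (cx K x) (-x0) h j e)) (tS q s r) z
        (MB K (cx K x) b' Lb eb h) (MC K (cx K x) R (Cz ez C') Lb eb (m ^ (1 / 4 : ℝ)) h) ≤
      4 ^ Lb * (X * (1 + Real.log (HH q r κ X / m)) ^ 3 *
        (√(z ^ 2 * Es * (tS q s r ^ 2 * EV)) + tS q s r ^ 2 * Es))

/-- **Hub `x1`, the pair `(b, C~)`, both saturated, crude.** -/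
def PhiC : SlotSt := fun ι _ _ q _n ez _F1 _F2 _F3 _o K x s r _U _g _u _v A b' C' R κ _E h j e X =>
  0 < ez → ∀ m N0 : ℝ, 0 < m → m ≤ 1 → 0 ≤ N0 → NumX K (cx K x) R C' h (N0 * (ez * m)) →
  ∀ t' ∈ rt (cx K x), ∀ (Lb : ℕ) (eb : ι ⊕ ι → ℤ), Function.Injective eb → (∀ i, eb i ∈ lbs Lb) →
  ∃ Z : ℝ, 0 ≤ Z ∧ Z * m ≤ X * (N0 + MM q s r κ K) * HH q r κ X ∧
    ∀ h', 0 < h' → h' ≤ tS q s r →
      RX (iv K t') (K + Lb) (fun x0 => sL Lb (sG K (cx K x) (-x0) h j e)) h' h'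
        (MB K (cx K x) b' Lb eb h) (MC K (cx K x) R (Cz ez C') Lb eb (m ^ (1 / 4 : ℝ)) h) ≤
      4 ^ Lb * (Z * h' ^ 2)

/-- **The numbers of the slot.** -/
def PhiN (p : ℕ) (th b : ℝ) : SlotSt :=
  fun ι _ _ q _n ez _F1 _F2 _F3 _o K x s r _U _g _u _v _A _b C' R κ E h _j _e X =>
  NumX K (cx K x) R C' h (X * (lgS q r κ ^ p * E ^ th *
    ((q.t / r) ^ (q.e0 / 2) * q.t ^ (-(b * (q.c + q.d))) * (ez * s) * 8 ^ K)))

/-! ### Monotonicity in the constant -/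

theorem lgS_one {q : H401.Num} {r κ : ℝ} (ht : 0 < q.t) (ht1 : q.t ≤ 1) (hr : 1 ≤ r)
    (hκ : 1 ≤ κ) : 1 ≤ lgS q r κ := by
  unfold lgS
  have h1 := Real.log_nonneg hκ
  have h2 : 0 ≤ Real.log (r / q.t) := Real.log_nonneg (by
    rw [le_div_iff₀ ht]
    linarith)
  linarith

theorem MM_nonneg {q : H401.Num} {s r κ : ℝ} {K : ℕ} (ht : 0 < q.t) (ht1 : q.t ≤ 1)
    (hs : 0 < s) (hr : 1 ≤ r) (hκ : 1 ≤ κ) : 0 ≤ MM q s r κ K := by
  have h1 := lgS_one ht ht1 hr hκ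
  unfold MM
  positivity

theorem one_le_base {q : H401.Num} {r κ X : ℝ} (ht : 0 < q.t) (ht1 : q.t ≤ 1) (hr : 1 ≤ r)
    (hκ : 1 ≤ κ) (hX : 1 ≤ X) : 1 ≤ X * κ * (r / q.t) := by
  have h2 : 1 ≤ r / q.t := by
    rw [le_div_iff₀ ht]
    linarith
  have h3 : 1 ≤ X * κ := one_le_mul_of_one_le_of_one_le hX hκ
  exact one_le_mul_of_one_le_of_one_le h3 h2

theorem HH_one {q : H401.Num} {r κ X : ℝ} (ht : 0 < q.t) (ht1 : q.t ≤ 1) (hr : 1 ≤ r)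
    (hκ : 1 ≤ κ) (hX : 1 ≤ X) : 1 ≤ HH q r κ X := one_le_pow₀ (one_le_base ht ht1 hr hκ hX)

theorem HH_mono {q : H401.Num} {r κ X X' : ℝ} (ht : 0 < q.t) (ht1 : q.t ≤ 1) (hr : 1 ≤ r)
    (hκ : 1 ≤ κ) (hX : 1 ≤ X) (hXX : X ≤ X') : HH q r κ X ≤ HH q r κ X' := by
  unfold HH
  have h1 := one_le_base ht ht1 hr hκ (hX.trans hXX)
  have h0 : 0 ≤ X * κ * (r / q.t) := by
    have := one_le_base ht ht1 hr hκ hX
    linarith
  have h2 : X * κ * (r / q.t) ≤ X' * κ * (r / q.t) := by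
    have : 0 ≤ r / q.t := by positivity
    gcongr
  exact (pow_le_pow_left₀ h0 h2 _).trans (pow_le_pow_right₀ h1 (Nat.ceil_mono hXX))

theorem log_mono {q : H401.Num} {r κ X X' m : ℝ} (ht : 0 < q.t) (ht1 : q.t ≤ 1) (hr : 1 ≤ r)
    (hκ : 1 ≤ κ) (hX : 1 ≤ X) (hXX : X ≤ X') (hm : 0 < m) (hm1 : m ≤ 1) :
    0 ≤ 1 + Real.log (HH q r κ X / m) ∧
      1 + Real.log (HH q r κ X / m) ≤ 1 + Real.log (HH q r κ X' / m) := by
  have h1 := HH_one ht ht1 hr hκ hX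
  have h2 := HH_mono ht ht1 hr hκ hX hXX
  have h3 : 1 ≤ HH q r κ X / m := by
    rw [le_div_iff₀ hm]
    linarith
  refine ⟨?_, ?_⟩
  · have := Real.log_nonneg h3
    linarith
  · have h4 : HH q r κ X / m ≤ HH q r κ X' / m := by gcongr
    have := Real.log_le_log (by linarith) h4
    linarith

theorem cube_mono {q : H401.Num} {r κ X X' m : ℝ} (ht : 0 < q.t) (ht1 : q.t ≤ 1) (hr : 1 ≤ r)
    (hκ : 1 ≤ κ) (hX : 1 ≤ X) (hXX : X ≤ X') (hm : 0 < m) (hm1 : m ≤ 1) :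
    X * (1 + Real.log (HH q r κ X / m)) ^ 3 ≤ X' * (1 + Real.log (HH q r κ X' / m)) ^ 3 := by
  obtain ⟨h1, h2⟩ := log_mono ht ht1 hr hκ hX hXX hm hm1
  have h3 := pow_le_pow_left₀ h1 h2 3
  have h4 : 0 ≤ (1 + Real.log (HH q r κ X / m)) ^ 3 := by positivity
  exact mul_le_mul hXX h3 h4 (by linarith)

theorem PhiZ_imp : ImpS PhiZ PhiZ := by
  intro ι _ _ q n ez F1 F2 F3 o K x s r U g u v A b' C' R κ E h j e X X' ht ht1 hs hr hκ _ hX hXX H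
  intro hez m N0 hm hm1 hN0 hnum t' ht' Lb eb he1 he2
  obtain ⟨Es, EA, h1, h2, h3, h4, h5⟩ := H hez m N0 hm hm1 hN0 hnum t' ht' Lb eb he1 he2
  have hM := MM_nonneg (K := K) ht ht1 hs hr hκ
  refine ⟨Es, EA, h1, h2, h3.trans ?_, h4.trans ?_, fun z hz => (h5 z hz).trans ?_⟩
  · gcongr
  · gcongr
  · have h6 := cube_mono ht ht1 hr hκ hX hXX hm hm1
    have h7 : 0 ≤ √(z ^ 2 * Es * (tS q s r ^ 2 * EA)) + tS q s r ^ 2 * Es := by positivity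
    exact mul_le_mul_of_nonneg_left (mul_le_mul_of_nonneg_right h6 h7) (by positivity)

theorem PhiX_imp : ImpS PhiX PhiX := by
  intro ι _ _ q n ez F1 F2 F3 o K x s r U g u v A b' C' R κ E h j e X X' ht ht1 hs hr hκ _ hX hXX H
  intro hez m N0 hm hm1 hN0 hnum t' ht' Lb eb he1 he2
  obtain ⟨Es, EV, h1, h2, h3, h4, h5⟩ := H hez m N0 hm hm1 hN0 hnum t' ht' Lb eb he1 he2
  have hM := MM_nonneg (K := K) ht ht1 hs hr hκ
  refine ⟨Es, EV, h1, h2, h3.trans ?_, h4.trans ?_, fun z hz => (h5 z hz).trans ?_⟩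
  · gcongr
  · gcongr
  · have h6 := cube_mono ht ht1 hr hκ hX hXX hm hm1
    have h7 : 0 ≤ √(z ^ 2 * Es * (tS q s r ^ 2 * EV)) + tS q s r ^ 2 * Es := by positivity
    exact mul_le_mul_of_nonneg_left (mul_le_mul_of_nonneg_right h6 h7) (by positivity)

theorem PhiC_imp : ImpS PhiC PhiC := by
  intro ι _ _ q n ez F1 F2 F3 o K x s r U g u v A b' C' R κ E h j e X X' ht ht1 hs hr hκ _ hX hXX H
  intro hez m N0 hm hm1 hN0 hnum t' ht' Lb eb he1 he2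
  obtain ⟨Z, h1, h2, h3⟩ := H hez m N0 hm hm1 hN0 hnum t' ht' Lb eb he1 he2
  have hM := MM_nonneg (K := K) ht ht1 hs hr hκ
  have h4 := HH_mono ht ht1 hr hκ hX hXX
  have h5 := HH_one ht ht1 hr hκ hX
  have h6 : 0 ≤ N0 + MM q s r κ K := by linarith
  have h7 : 0 ≤ HH q r κ X := by linarith
  refine ⟨Z, h1, h2.trans ?_, h3⟩
  exact mul_le_mul (mul_le_mul_of_nonneg_right hXX h6) h4 h7 (by
    have : 0 ≤ X' := by linarith
    positivity)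

end

end Vale.Agent.P141.H277.Phi
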