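import Vale.Agent.P141.H277.NumQG
import Vale.Agent.P141.H863.PhiZ
import Vale.Agent.P141.H76.MassZ

/-!
# P141, line A, flow part: the node form of the pair `(C~, A)` at the bundle `FDU`

* `phiZ` : `PartS FDU PhiZ`, closed;
* `pca_FDU`, `pbc_FDU`, `pzb_FDU` : the node forms of the three pairs from `SlotNum FDU`.
-/

namespace Vale.Agent.P141.H277.Phi

open Vale.Agent.P141.H677 Vale.Agent.P141.H677.Sk
open Vale.Agent.P141.H186.PS
open Vale.Agent.P141.H972 (StP PCA PBC PZB NumQ)

noncomputable section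

open scoped Classical

/-- **Hub `x3`, closed.** -/
theorem phiZ : PartS H636.FDU PhiZ := by
  refine H863.phiZ_FDU ?_
  intro ι _ _ q n ez F1 F2 F3 K x s r P U g u v A b C Q1 Q2 Q3 v' hD hC ht hs hez _ hKn
  obtain ⟨Mx, h0, h1, h2, _⟩ := H76.mass_z hD hC (Real.rpow_nonneg ht.le _) hs.le hez.le hKn
  exact ⟨Mx, h0, h1, h2⟩

/-- the node form of the pair `(C~, A)` -/
theorem pca_FDU (hN : SlotNum H636.FDU) : NumQ H636.FDU PCA := numQ_PCA phiZ hN

/-- the node form of the pair `(b, C~)` -/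
theorem pbc_FDU (hX : PartS H636.FDU PhiX) (hN : SlotNum H636.FDU) : NumQ H636.FDU PBC :=
  numQ_PBC hX hN

/-- the node form of the pair `(b, C~)` at equal levels -/
theorem pzb_FDU (hC : PartS H636.FDU PhiC) (hN : SlotNum H636.FDU) : NumQ H636.FDU PZB :=
  numQ_PZB hC hN

end

end Vale.Agent.P141.H277.Phi
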