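import Vale.Agent.P141.H222.NumOf
import Vale.Agent.P141.H329.WinS
import Vale.Agent.P141.H736.FixBD
import Vale.Agent.P141.H74.CutBC
import Vale.Agent.P141.H652.NumR
import Vale.Agent.P141.H652.NumQ
import Vale.Agent.P141.H302.BornU
import Vale.Agent.P141.H548.LagU
import Vale.Agent.P141.H989.CrB3

/-!
# P141, line (A), increasing part: the pair `(Bg, Cg)` at one `x0`, class data

`numBC : H886.NumBC 2160000 2`, `lBCg : H408.LBCg`.
-/

namespace Vale.Agent.P141.H277.PtBC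

open Finset Matrix
open Vale.Agent.P075 (Ix)
open Vale.Agent.P141.PL (Pt iv ix cx mem_iv)
open Vale.Agent.P141.PL.H315 (Tri)
open Vale.Agent.P141.H103 (GW)
open Vale.Agent.P141.PL.H103 Vale.Agent.P141.H103
open Vale.Agent.P141.H48 (US ES BSl)
open Vale.Agent.P141.H305 (ClsM kapM)
open Vale.Agent.P141.H401 (StQ FibU FibP cb qB qC)
open Vale.Agent.P141.H677 (rt KT GT cP tr_T)
open Vale.Agent.P141.H408
open Vale.Agent.P141.H808 (cS thS)
open Vale.Agent.P141.H652 (Th ah eb dB payS PbS)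
open Vale.Agent.P141.H548 (vN oN chg kinds)
open Vale.Agent.P141.H302 (bN Pr)
open Vale.Agent.P141.H989.CrB (fCRB mB)
open Vale.Agent.P141.H74.CapBC (thX)
open Vale.Agent.P141.H419.WFamR (Wn Dn En nmH nmD nmE nmB c1)
open Vale.Agent.P141.H912 (wS)
open Vale.Agent.P141.H874 Vale.Agent.P141.H457
open Vale.Agent.P141.H886

noncomputable section

open scoped Classical

set_option linter.unusedVariables false
set_option linter.unusedSectionVars false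

/-! ### The numbers -/

theorem SumL_at {σ : ℝ} {f : ℕ → NumF} (H : SumL σ f) (l : ℕ) : SumU σ (f l) := by
  refine PairU.map (M := 1) zero_le_one H ?_
  intro ι _ _ p n ez F1 F2 F3 o K x s r U g u v Q1 Q2 Q3 X ht hs hr hez hX h
  rw [one_mul]
  exact h l

/-- the number of the second slot -/
def fE : NumF := fun ι _ _ p n ez F1 F2 F3 o K x s r U g u v Q1 Q2 Q3 x0 =>
  ((((∑ l ∈ range (K + 1), (3 / 4 : ℝ) ^ l *
      vN 0 l ι p n ez F1 F2 F3 o K x s r U g u v Q1 Q2 Q3 x0) +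
    vN 1 0 ι p n ez F1 F2 F3 o K x s r U g u v Q1 Q2 Q3 x0) +
    oN 0 ι p n ez F1 F2 F3 o K x s r U g u v Q1 Q2 Q3 x0) +
    fCRB mB ι p n ez F1 F2 F3 o K x s r U g u v Q1 Q2 Q3 x0) +
  (bN 0 ι p n ez F1 F2 F3 o K x s r U g u v Q1 Q2 Q3 x0 +
    ∑ l ∈ range (K + 1), (3 / 4 : ℝ) ^ l *
      bN (l + 1) ι p n ez F1 F2 F3 o K x s r U g u v Q1 Q2 Q3 x0)

/-- the number of the first slot -/
def fB : NumF := fun ι _ _ p n ez F1 F2 F3 o K x s r U g u v Q1 Q2 Q3 x0 =>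
  dB p s r U K x u F3 Q3 x0 +
    payS (beI p r) (p.lam s r) o K (cx K x) u (fun k => H652.bS p s r U K u F3 Q3 x0 k) x0

theorem sumU_E : SumU 1 fE :=
  SumU.add (SumU.add (SumU.add (SumU.add (H548.sumU_v (Nat.zero_le 1))
    (SumL_at (H548.sumL_v le_rfl) 0)) (SumL_at H548.sumL_o 0)) H989.CrB.sumU_mB)
    (SumU.add H302.sumU_b0 H302.sumU_b1)

theorem sumU_B : SumU (-1) fB := H652.EBU

theorem six {a1 a2 a3 a4 a5 a6 : ℝ} (h1 : 0 ≤ a1) (h2 : 0 ≤ a2) (h3 : 0 ≤ a3) (h4 : 0 ≤ a4)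
    (h5 : 0 ≤ a5) (h6 : 0 ≤ a6) :
    0 ≤ (((a1 + a2) + a3) + a4) + (a5 + a6) ∧ a1 ≤ (((a1 + a2) + a3) + a4) + (a5 + a6) ∧
      a2 ≤ (((a1 + a2) + a3) + a4) + (a5 + a6) ∧ a3 ≤ (((a1 + a2) + a3) + a4) + (a5 + a6) ∧
      a4 ≤ (((a1 + a2) + a3) + a4) + (a5 + a6) ∧ a5 ≤ (((a1 + a2) + a3) + a4) + (a5 + a6) ∧
      a6 ≤ (((a1 + a2) + a3) + a4) + (a5 + a6) := by
  refine ⟨?_, ?_, ?_, ?_, ?_, ?_, ?_⟩ <;> linarith

section one

variable {ι : Type} [Fintype ι] [DecidableEq ι] {p : H401.Num} {n : ℕ} {ez : ℝ}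
  {F1 F2 F3 : ℕ → Pt → ℝ} {o : ℤ} {K : ℕ} {x : Pt} {s r : ℝ} {U : Tri} {g : ℤ → ℤ → ℝ}
  {u v : ℤ → ℤ → ι → ℝ} {Q1 Q2 Q3 : ℕ → Pt → Prop} {x0 : ℤ}

/-- the drift -/
abbrev eX (p : H401.Num) (s r : ℝ) (o : ℤ) (K : ℕ) (x : Pt) (u : ℤ → ℤ → ι → ℝ) (x0 : ℤ) :
    ℕ → ℤ → ℤ → Matrix ι ι ℝ :=
  fun k y m => eb (p.lam s r) K (cx K x).2.1 (KT (p.lam s r) u y) (o - 2) x0 y (k + 1) m

/-- the move -/
abbrev dX (p : H401.Num) (s r : ℝ) (o : ℤ) (K : ℕ) (x : Pt) (u : ℤ → ℤ → ι → ℝ) (x0 : ℤ) :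
    ℕ → ℤ → ℤ → Matrix ι ι ℝ :=
  fun k y m => ah (p.lam s r) K (cx K x).2.1 (KT (p.lam s r) u y) (o - 2) x0 y k m

theorem kinds_nonneg (ht : 0 < p.t) (hs : 0 < s) (hr : 1 ≤ r) (a : ℕ) (x1 z : ℤ) (w : ι → ℝ) :
    0 ≤ kinds p s r o K x u x0 a x1 z w :=
  add_nonneg (add_nonneg (add_nonneg (H548.zm_nonneg ht hs hr o K x u x0 a x1 z w)
    (H548.ze_nonneg ht hs hr o K x u x0 a x1 z w)) (H548.zd_nonneg ht hs hr o K x u x0 a x1 z w))
    (H548.zq_nonneg ht hs hr o K x u x0 a x1 z w)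

theorem vN_nonneg (ht : 0 < p.t) (hs : 0 < s) (hr : 1 ≤ r) (j q : ℕ) :
    0 ≤ vN j q ι p n ez F1 F2 F3 o K x s r U g u v Q1 Q2 Q3 x0 :=
  sum_nonneg fun k _ => sum_nonneg fun x1 _ => sum_nonneg fun z _ =>
    add_nonneg (H548.chg_nonneg ht hs hr o K x u x0 _ x1 z _)
      (kinds_nonneg ht hs hr _ x1 z _)

theorem oN_nonneg (ht : 0 < p.t) (hs : 0 < s) (hr : 1 ≤ r) (q : ℕ) :
    0 ≤ oN q ι p n ez F1 F2 F3 o K x s r U g u v Q1 Q2 Q3 x0 :=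
  sum_nonneg fun x1 _ => sum_nonneg fun z _ => H302.eT_nn ht hs hr _ _ x1 z

theorem bN_nonneg (ht : 0 < p.t) (hs : 0 < s) (hr : 1 ≤ r) (q : ℕ) :
    0 ≤ bN q ι p n ez F1 F2 F3 o K x s r U g u v Q1 Q2 Q3 x0 := by
  refine sum_nonneg fun k _ => sum_nonneg fun x1 _ => sum_nonneg fun z _ => ?_
  split_ifs
  · exact H302.eT_nn ht hs hr _ _ x1 z
  · exact le_rfl

theorem fCRB_nonneg (ht : 0 < p.t) (hs : 0 < s) (hr : 1 ≤ r) :
    0 ≤ fCRB mB ι p n ez F1 F2 F3 o K x s r U g u v Q1 Q2 Q3 x0 := by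
  refine sum_nonneg fun k _ => sum_nonneg fun x1 _ => sum_nonneg fun z _ => ?_
  split_ifs
  · exact H302.eT_nn ht hs hr _ _ x1 z
  · exact le_rfl

theorem wt_nonneg {f : ℕ → ℝ} (h : ∀ l, 0 ≤ f l) :
    0 ≤ ∑ l ∈ range (K + 1), (3 / 4 : ℝ) ^ l * f l :=
  sum_nonneg fun l _ => mul_nonneg (by positivity) (h l)

/-- the move against the slot -/
theorem nmD_vN (ht : 0 < p.t) (hs : 0 < s) (hr : 1 ≤ r) {c : ℕ → ℤ → ℤ → ι → ℝ} {j q : ℕ}
    (hc : ∀ k < K - q, ∀ y z, c k y z = cS p ez U K v F2 x0 (k + j) y z) :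
    (beI p r)⁻¹ * nmD K (cx K x).2.2 (cx K x).1 (dX p s r o K x u x0) c q ≤
      vN j q ι p n ez F1 F2 F3 o K x s r U g u v Q1 Q2 Q3 x0 := by
  unfold H419.WFamR.nmD H548.vN
  rw [Finset.mul_sum, Nat.Ico_zero_eq_range]
  refine sum_le_sum fun k hk => ?_
  unfold H419.WFamR.Dn
  rw [Finset.mul_sum]
  refine sum_le_sum fun y _ => ?_
  rw [Finset.mul_sum]
  refine sum_le_sum fun z _ => ?_
  rw [hc k (mem_range.1 hk) y z]
  have h1 := H548.raw_le (p := p) ht hs hr o K x u x0 (k + q) y z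
    (cS p ez U K v F2 x0 (k + j) y z)
  have h2 := kinds_nonneg (p := p) (o := o) (K := K) (x := x) (u := u) (x0 := x0) ht hs hr (k + q)
    y z (cS p ez U K v F2 x0 (k + j) y z)
  have hb : 0 < (beI p r)⁻¹ := inv_pos.2 (Real.rpow_pos_of_pos (div_pos ht (by linarith)) _)
  have h3 := mul_nonneg hb.le (H548.ze_nonneg (p := p) ht hs hr o K x u x0 (k + q) y z
    (cS p ez U K v F2 x0 (k + j) y z))
  have h4 : (beI p r)⁻¹ * ((dX p s r o K x u x0 (k + q) y (ix (k + q + 1) z) *ᵥ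
      cS p ez U K v F2 x0 (k + j) y z) ⬝ᵥ (dX p s r o K x u x0 (k + q) y (ix (k + q + 1) z) *ᵥ
      cS p ez U K v F2 x0 (k + j) y z)) ≤
      chg p s r o K x u x0 (k + q) y z (cS p ez U K v F2 x0 (k + j) y z) := by
    refine le_trans ?_ h1
    exact le_add_of_nonneg_right h3
  linarith

/-- the drift against the slot -/
theorem nmE_vN (ht : 0 < p.t) (hs : 0 < s) (hr : 1 ≤ r) {c : ℕ → ℤ → ℤ → ι → ℝ} {j q : ℕ}
    (hc : ∀ k < K - q, ∀ y z, c k y z = cS p ez U K v F2 x0 (k + j) y z) :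
    (beI p r)⁻¹ * nmE K (cx K x).2.2 (cx K x).1 (eX p s r o K x u x0) c q ≤
      vN j q ι p n ez F1 F2 F3 o K x s r U g u v Q1 Q2 Q3 x0 := by
  unfold H419.WFamR.nmE H548.vN
  rw [Finset.mul_sum, Nat.Ico_zero_eq_range]
  refine sum_le_sum fun k hk => ?_
  unfold H419.WFamR.En
  rw [Finset.mul_sum]
  refine sum_le_sum fun y _ => ?_
  rw [Finset.mul_sum]
  refine sum_le_sum fun z _ => ?_
  rw [hc k (mem_range.1 hk) y z]
  have h1 := H548.raw_le (p := p) ht hs hr o K x u x0 (k + q) y z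
    (cS p ez U K v F2 x0 (k + j) y z)
  have h2 := kinds_nonneg (p := p) (o := o) (K := K) (x := x) (u := u) (x0 := x0) ht hs hr (k + q)
    y z (cS p ez U K v F2 x0 (k + j) y z)
  have hb : 0 < (beI p r)⁻¹ := inv_pos.2 (Real.rpow_pos_of_pos (div_pos ht (by linarith)) _)
  have h3 := mul_nonneg hb.le (H447.dot_self_nonneg (ah (p.lam s r) K (cx K x).2.1
    (KT (p.lam s r) u y) (o - 2) x0 y (k + q) (ix (k + q + 1) z) *ᵥ
      cS p ez U K v F2 x0 (k + j) y z))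
  have h4 : (beI p r)⁻¹ * (cS p ez U K v F2 x0 (k + j) y z ⬝ᵥ
      eX p s r o K x u x0 (k + q) y (ix (k + q + 1) z) *ᵥ cS p ez U K v F2 x0 (k + j) y z) ≤
      chg p s r o K x u x0 (k + q) y z (cS p ez U K v F2 x0 (k + j) y z) := by
    refine le_trans ?_ h1
    exact le_add_of_nonneg_left h3
  linarith

/-- the slot is stopped at `K` -/
theorem cS_stop (k : ℕ) : cS p ez U K v F2 x0 (min k K) = cS p ez U K v F2 x0 k := by
  funext y z
  rw [H548.cS_min, H548.cS_min p ez U K v F2 x0 k, min_eq_left (min_le_right k K)]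

theorem nmH_zero (q : ℕ) :
    nmH K (cx K x).2.2 (cx K x).1 (beI p r) (thX p s r o K x u x0) (cS p ez U K v F2 x0) q = 0 := by
  unfold H419.WFamR.nmH H419.WFamR.Wn
  refine sum_eq_zero fun y _ => sum_eq_zero fun z _ => ?_
  rw [H548.cS_zero, zero_dotProduct]

theorem nmH_one :
    nmH K (cx K x).2.2 (cx K x).1 (beI p r) (thX p s r o K x u x0)
      (c1 K (cS p ez U K v F2 x0)) 0 ≤
      oN 0 ι p n ez F1 F2 F3 o K x s r U g u v Q1 Q2 Q3 x0 := by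
  unfold H419.WFamR.nmH H419.WFamR.Wn H548.oN H419.WFamR.c1
  rw [show 0 + 1 = 1 from rfl, cS_stop, Nat.zero_min]
  exact le_rfl

/-- **The pair at one `x0`.** -/
theorem pt_fix (ht : 0 < p.t) (ht1 : p.t ≤ 1) (he0 : 0 < p.e0) (hd : p.d ≤ 1) (hs : 0 < s)
    (hr : 1 ≤ r) (ho : o = 1 ∨ o = -1) (hK : K ≤ n) {P : ℝ} (hcls : H305.Cls K x s r P U g u v)
    (q2 : BSl n ez p.cP F2 Q2) (hez : 0 < ez) {z : ℝ} {J : ℕ} (hz : 0 < z)
    (hJ : 2 * cCI p s r ^ 2 ≤ z ^ 2 * 4 ^ J) :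
    pBC (p.al U K) o K (cx K x) (beI p r) (p.lam s r) u (cb p s r U K u F3 Q3)
        (C1 p ez U K v F2) (tauI p s r) z x0 ≤
      18 * (120000 * ((J : ℝ) + 1) ^ 3) *
        (√(z ^ 2 * fE ι p n ez F1 F2 F3 o K x s r U g u v Q1 Q2 Q3 x0 *
          (p.th s r ^ 2 * fB ι p n ez F1 F2 F3 o K x s r U g u v Q1 Q2 Q3 x0)) +
          p.th s r ^ 2 * fE ι p n ez F1 F2 F3 o K x s r U g u v Q1 Q2 Q3 x0) := by
  have hl : 0 < p.lam s r := H401.Num.lam_pos (p := p) ht hs hr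
  have hbe : 0 < beI p r := Real.rpow_pos_of_pos (div_pos ht (by linarith)) _
  have hbe1 : beI p r ≤ 1 := H548.beI_le_one ht ht1 he0.le hr
  have hth : 0 < p.th s r := H401.Num.th_pos ht hs hr
  have hT : H419.Wt (thX p s r o K x u x0) (eX p s r o K x u x0) (dX p s r o K x u x0) :=
    H652.wt_Th (fun y => tr_T hl K u y) _ _ _
  have hT2 : ∀ k y m, ((2 : ℝ) • (1 : Matrix ι ι ℝ) - thX p s r o K x u x0 k y m).PosSemidef :=
    fun k y m => H652.Th_le_two (tr_T hl K u y) _ _ _ _ _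
  -- the numbers of the second slot
  have e1 : 0 ≤ ∑ l ∈ range (K + 1), (3 / 4 : ℝ) ^ l *
      vN 0 l ι p n ez F1 F2 F3 o K x s r U g u v Q1 Q2 Q3 x0 :=
    wt_nonneg fun l => vN_nonneg ht hs hr 0 l
  have e2 : 0 ≤ vN 1 0 ι p n ez F1 F2 F3 o K x s r U g u v Q1 Q2 Q3 x0 := vN_nonneg ht hs hr 1 0
  have e3 : 0 ≤ oN 0 ι p n ez F1 F2 F3 o K x s r U g u v Q1 Q2 Q3 x0 := oN_nonneg ht hs hr 0
  have e4 : 0 ≤ fCRB mB ι p n ez F1 F2 F3 o K x s r U g u v Q1 Q2 Q3 x0 := fCRB_nonneg ht hs hr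
  have e5 : 0 ≤ bN 0 ι p n ez F1 F2 F3 o K x s r U g u v Q1 Q2 Q3 x0 := bN_nonneg ht hs hr 0
  have e6 : 0 ≤ ∑ l ∈ range (K + 1), (3 / 4 : ℝ) ^ l *
      bN (l + 1) ι p n ez F1 F2 F3 o K x s r U g u v Q1 Q2 Q3 x0 :=
    wt_nonneg fun l => bN_nonneg ht hs hr (l + 1)
  obtain ⟨s0, s1, s2, s3, s4, s5, s6⟩ := six e1 e2 e3 e4 e5 e6
  -- the numbers of the first slot
  have b1 : 0 ≤ dB p s r U K x u F3 Q3 x0 := H652.dB_nonneg x x0
  have b2 : 0 ≤ payS (beI p r) (p.lam s r) o K (cx K x) u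
      (fun k => H652.bS p s r U K u F3 Q3 x0 k) x0 := H652.payS_nonneg hbe hl _
  have hB : fB ι p n ez F1 F2 F3 o K x s r U g u v Q1 Q2 Q3 x0 =
      dB p s r U K x u F3 Q3 x0 + payS (beI p r) (p.lam s r) o K (cx K x) u
        (fun k => H652.bS p s r U K u F3 Q3 x0 k) x0 := rfl
  refine (H329.WinBC.pBC_cls ht hs hr ez U o K x u v F2 F3 Q3 (tauI_pos ht hs hr) hz x0).trans ?_
  refine (le_of_eq (H74.CutBC.GW_win_cut (N := K) (S := (cx K x).1) (R := (cx K x).2.2)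
    (c := cS p ez U K v F2 x0) (be := beI p r) (s := z ^ 2) (T := thX p s r o K x u x0)
    (cx K x).2.1 (cP o x0) (fun k a n m => CP (H652.bS p s r U K u F3 Q3 x0 k) k a n m)
    (fun k => sk (k + 1) ι)).symm).trans ?_
  refine H736.fix_BC2 (b := H652.bS p s r U K u F3 Q3 x0)
    (c := H170.Win.cut K (cx K x).1 (cx K x).2.2 (cS p ez U K v F2 x0))
    (Pb := PbS p s r U K u F3 Q3 x0) (Pc := Pr (cS p ez U K v F2 x0)) (C := cCI p s r ^ 2)
    hbe hbe1 (by positivity) (sq_nonneg _) (τ := 2) (by norm_num) le_rfl hT hT2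
    (H652.PbS_off x0) (H74.CutBC.cut_row H302.pr_not) (H652.bS_capk hth x0)
    (H652.bS_capk1 hth x0) (H652.bS_capN hth x0) ?_ ?_ hJ (H677.cP_pl ho x0) ?_ ?_
    ?_ ?_ ?_ ?_ ?_ ?_ ?_ ?_ ?_ ?_ ?_ ?_ ?_
  · intro k a n' m hk ha
    exact H74.CapBC.cut_capX ht ht1 hd he0.le hs hr hez hK hcls q2 x0 (by omega) (by omega)
      (by omega) n' m
  · intro k a n' m hk ha
    exact H74.CapBC.cut_capX ht ht1 hd he0.le hs hr hez hK hcls q2 x0 (by omega) (by omega)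
      (by omega) n' m
  · exact s0
  · exact add_nonneg b1 b2
  · exact (H652.bS_hB1 x x0).trans (le_add_of_nonneg_right b2)
  · exact (H652.bS_hB2 x x0).trans (le_add_of_nonneg_right b2)
  · exact (H652.pay_hB3 hbe hl _).trans (le_add_of_nonneg_left b1)
  · exact (H652.pay_hB4 hbe _).trans (le_add_of_nonneg_left b1)
  · rw [H74.CutBC.c1_cut, H74.CutBC.nmH_cut]
    exact (nmH_one (n := n) (F1 := F1) (F3 := F3) (U := U) (g := g) (Q1 := Q1) (Q2 := Q2)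
      (Q3 := Q3)).trans s3
  · rw [H74.CutBC.c1_cut, H74.CutBC.nmD_cut]
    refine (nmD_vN (n := n) (F1 := F1) (F2 := F2) (F3 := F3) (ez := ez) (U := U) (g := g)
      (v := v) (Q1 := Q1) (Q2 := Q2) (Q3 := Q3) (j := 1) ht hs hr ?_).trans s2
    intro k hk y w
    unfold H419.WFamR.c1
    rw [cS_stop]
  · rw [H74.CutBC.c1_cut, H74.CutBC.nmE_cut]
    refine (nmE_vN (n := n) (F1 := F1) (F2 := F2) (F3 := F3) (ez := ez) (U := U) (g := g)
      (v := v) (Q1 := Q1) (Q2 := Q2) (Q3 := Q3) (j := 1) ht hs hr ?_).trans s2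
    intro k hk y w
    unfold H419.WFamR.c1
    rw [cS_stop]
  · refine le_trans (le_of_eq ?_) s4
    unfold H989.CrB.fCRB
    refine sum_congr rfl fun k hk => sum_congr rfl fun y hy => sum_congr rfl fun w hw => ?_
    rw [H74.CutBC.wE_cut (mem_Ico.1 hk).2 hy hw]
    rfl
  · refine le_trans (le_of_eq ?_) ((H302.Wn_bN (ez := ez) (U := U) (v := v) (F2 := F2) ht hs hr
      H302.pr_ch n F1 F3 g Q1 Q2 Q3).trans s5)
    exact sum_congr rfl fun k hk => H74.CutBC.Wn_rs_cut (mem_Ico.1 hk).2 _ _ _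
  · rw [H74.CutBC.nmH_cut]
    refine le_trans (le_of_eq ?_) s0
    unfold H912.wS
    exact sum_eq_zero fun l _ => by rw [nmH_zero, mul_zero]
  · rw [H74.CutBC.nmD_cut]
    refine le_trans ?_ s1
    unfold H912.wS
    exact sum_le_sum fun l _ => mul_le_mul_of_nonneg_left
      (nmD_vN (j := 0) ht hs hr fun k _ y w => rfl) (by positivity)
  · rw [H74.CutBC.nmE_cut]
    refine le_trans ?_ s1
    unfold H912.wS
    exact sum_le_sum fun l _ => mul_le_mul_of_nonneg_left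
      (nmE_vN (j := 0) ht hs hr fun k _ y w => rfl) (by positivity)
  · rw [H74.CutBC.nmB_cut]
    refine le_trans ?_ s6
    unfold H912.wS
    exact sum_le_sum fun l _ => mul_le_mul_of_nonneg_left
      (H302.nmB_bN ht hs hr H302.pr_ch l n F1 F3 g Q1 Q2 Q3) (by positivity)

theorem fE_nonneg (ht : 0 < p.t) (hs : 0 < s) (hr : 1 ≤ r) :
    0 ≤ fE ι p n ez F1 F2 F3 o K x s r U g u v Q1 Q2 Q3 x0 :=
  (six (wt_nonneg fun l => vN_nonneg ht hs hr 0 l) (vN_nonneg ht hs hr 1 0)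
    (oN_nonneg ht hs hr 0) (fCRB_nonneg ht hs hr) (bN_nonneg ht hs hr 0)
    (wt_nonneg fun l => bN_nonneg ht hs hr (l + 1))).1

theorem fB_nonneg (ht : 0 < p.t) (hs : 0 < s) (hr : 1 ≤ r) :
    0 ≤ fB ι p n ez F1 F2 F3 o K x s r U g u v Q1 Q2 Q3 x0 :=
  add_nonneg (H652.dB_nonneg x x0) (H652.payS_nonneg
    (Real.rpow_pos_of_pos (div_pos ht (by linarith)) _) (H401.Num.lam_pos (p := p) ht hs hr) _)

end one

theorem up_q {L z E B q q' : ℝ} (hL : 0 ≤ L) (hE : 0 ≤ E) (hB : 0 ≤ B) (hqq : q ≤ q') :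
    18 * (120000 * L) * (√(z ^ 2 * E * (q * B)) + q * E) ≤
      2160000 * L * (√(z ^ 2 * E * (q' * B)) + q' * E) := by
  have h1 : √(z ^ 2 * E * (q * B)) ≤ √(z ^ 2 * E * (q' * B)) := Real.sqrt_le_sqrt (by gcongr)
  have h2 : 18 * (120000 * L) = 2160000 * L := by ring
  rw [h2]
  gcongr

/-- **The numbers of the pair `(Bg, Cg)`.** -/
theorem numBC : NumBC 2160000 2 := by
  refine H222.Of.numBC_of sumU_E sumU_B ?_
  intro ι _ _ p n ez F1 F2 F3 o K x s r U g u v Q1 Q2 Q3 ht ht1 he0 he01 hk3 hk31 hd hd1 hc he hcP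
    hL ho hK hs hr hcls q1 q2 q3 hez f1 f2
  refine ⟨fun x0 => fE_nonneg ht hs hr, fun x0 => fB_nonneg ht hs hr, ?_⟩
  intro t _ x0 _ z J hz1 _ hJ
  have hg : 0 < gI p s r := mul_pos (Real.rpow_pos_of_pos (div_pos ht (by linarith)) _)
    (tauI_pos ht hs hr)
  have hz : 0 < z := lt_of_lt_of_le hg hz1
  have hJ2 : 2 * cCI p s r ^ 2 ≤ z ^ 2 * 4 ^ J := by
    have h1 : 0 ≤ cCI p s r ^ 2 := sq_nonneg _
    have h2 : (2 * cCI p s r) ^ 2 = 4 * cCI p s r ^ 2 := by ring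
    rw [h2, mul_comm (4 ^ J)] at hJ
    linarith
  refine (pt_fix (F1 := F1) (g := g) (Q1 := Q1) (Q2 := Q2) ht ht1 he0 hd1 hs hr ho hK hcls.toCls
    q2 hez hz hJ2).trans ?_
  refine up_q (by positivity) (fE_nonneg ht hs hr) (fB_nonneg ht hs hr) ?_
  have hth := H401.Num.th_pos (p := p) ht hs hr
  unfold H408.tauI
  nlinarith

/-- **The leaf of the moving pair `(Bg, Cg)`.** -/
theorem lBCg : LBCg := lbc_end (by norm_num) (by norm_num) numBC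

end

end Vale.Agent.P141.H277.PtBC
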