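import Vale.Agent.P141.H939.PriceF
import Vale.Agent.P141.H277.PtBC

/-!
# P141, line (A), top: the final statement

`finalAll : H397.FinalAll`.
-/

namespace Vale.Agent.P141.H277

/-- **Every `r < 2`.** -/
theorem finalAll : H397.FinalAll := H939.Top.finalAll_of_LBCg PtBC.lBCg

end Vale.Agent.P141.H277
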