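import Vale.Agent.P141.H277.PhiS

/-!
# P141, line A, flow part: the numbers of the closed stage from the three pair statements

`pairs_num` : `PhiZ`, `PhiX`, `PhiC`, `PhiN` at one slot with one constant give the three pair
sums of `H186.CloseM.close_m` with `m = (t / r) ^ (e0 / 2) (E / EM) ^ th` and one number `N`.
-/

namespace Vale.Agent.P141.H277.Phi

open Finset Matrix
open Vale.Agent.P141.PL (Pt iv hs ix mem_iv ix_ix cb mem_cb cx card_iv)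
open Vale.Agent.P141.PL.H315 (Tri)
open Vale.Agent.P141.H958 (lbs)
open Vale.Agent.P141.H581 (RX)
open Vale.Agent.P141.H747 (sL sG MA MB MC)
open Vale.Agent.P141.H677 Vale.Agent.P141.H677.Sk
open Vale.Agent.P141.H186.PS

noncomputable section

open scoped Classical

set_option linter.unusedVariables false

/-- the energy of the slot, `EM` = the largest energy number -/
def mE (q : H401.Num) (r E EM th : ℝ) : ℝ := (q.t / r) ^ (q.e0 / 2) * (E / EM) ^ th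

/-- the number of the slot -/
def N0E (q : H401.Num) (s r κ EM th b X : ℝ) (p K : ℕ) : ℝ :=
  X * EM ^ th * (lgS q r κ ^ p * (q.t ^ (-(b * (q.c + q.d))) * s * 8 ^ K))

/-- the number of the closed stage -/
def NE (q : H401.Num) (s r κ EM th b X : ℝ) (p K : ℕ) : ℝ :=
  2 * X * (N0E q s r κ EM th b X p K + MM q s r κ K)

theorem mE_pos {q : H401.Num} {r E EM th : ℝ} (ht : 0 < q.t) (hr : 1 ≤ r) (hE : 0 < E)
    (hEM : 1 ≤ EM) : 0 < mE q r E EM th := by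
  have hr0 : 0 < r := by linarith
  have hEM0 : 0 < EM := by linarith
  unfold mE
  positivity

theorem mE_le {q : H401.Num} {r E EM th : ℝ} (ht : 0 < q.t) (ht1 : q.t ≤ 1) (hr : 1 ≤ r)
    (he0 : 0 ≤ q.e0) (hE : 0 < E) (hEM : 1 ≤ EM) (hE1 : E ≤ EM) (hth : 0 ≤ th) :
    mE q r E EM th ≤ 1 := by
  have hr0 : 0 < r := by linarith
  have hEM0 : 0 < EM := by linarith
  have h1 : q.t / r ≤ 1 := by
    rw [div_le_iff₀ hr0]
    linarith
  have h2 : E / EM ≤ 1 := by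
    rw [div_le_iff₀ hEM0]
    linarith
  unfold mE
  exact mul_le_one₀ (Real.rpow_le_one (by positivity) h1 (by positivity)) (by positivity)
    (Real.rpow_le_one (by positivity) h2 hth)

theorem N0E_nonneg {q : H401.Num} {s r κ EM th b X : ℝ} {p K : ℕ} (ht : 0 < q.t)
    (ht1 : q.t ≤ 1) (hs : 0 < s) (hr : 1 ≤ r) (hκ : 1 ≤ κ) (hEM : 1 ≤ EM) (hX : 1 ≤ X) :
    0 ≤ N0E q s r κ EM th b X p K := by
  have h1 := lgS_one ht ht1 hr hκ
  have hEM0 : 0 < EM := by linarith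
  have hX0 : 0 < X := by linarith
  unfold N0E
  positivity

/-- the number of `PhiN` -/
theorem num_eq {q : H401.Num} {s r κ E EM th b X ez : ℝ} {p K : ℕ} (hE : 0 < E) (hEM : 1 ≤ EM) :
    X * (lgS q r κ ^ p * E ^ th *
      ((q.t / r) ^ (q.e0 / 2) * q.t ^ (-(b * (q.c + q.d))) * (ez * s) * 8 ^ K)) =
    N0E q s r κ EM th b X p K * (ez * mE q r E EM th) := by
  have hEM0 : 0 < EM := by linarith
  unfold N0E mE
  rw [Real.div_rpow hE.le hEM0.le]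
  have : 0 < EM ^ th := Real.rpow_pos_of_pos hEM0 _
  field_simp

/-- **The number `NE` in the form of `H186.PS.OneS`.** -/
theorem NE_le {q : H401.Num} {s r κ EM th b X : ℝ} {p K : ℕ} (ht : 0 < q.t) (ht1 : q.t ≤ 1)
    (hc : 0 ≤ q.c) (hd : 0 ≤ q.d) (hs : 0 < s) (hr : 1 ≤ r) (hκ : 1 ≤ κ) (hEM : 1 ≤ EM)
    (hb : 0 ≤ b) (hX : 1 ≤ X) :
    NE q s r κ EM th b X p K ≤ 2 * X * (X * EM ^ th + 1) *
      (lgS q r κ ^ (p + 64) * (q.t ^ (-((b + 64) * (q.c + q.d))) * s * 8 ^ K)) := by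
  have h1 := lgS_one ht ht1 hr hκ
  have hEM0 : 0 < EM := by linarith
  have hX0 : 0 < X := by linarith
  have hcd : 0 ≤ q.c + q.d := by linarith
  have hp1 : lgS q r κ ^ p ≤ lgS q r κ ^ (p + 64) := pow_le_pow_right₀ h1 (by omega)
  have hp2 : lgS q r κ ^ 64 ≤ lgS q r κ ^ (p + 64) := pow_le_pow_right₀ h1 (by omega)
  have ht2 : q.t ^ (-(b * (q.c + q.d))) ≤ q.t ^ (-((b + 64) * (q.c + q.d))) :=
    Real.rpow_le_rpow_of_exponent_ge ht ht1 (by nlinarith)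
  have ht3 : q.t ^ (-(64 * (q.c + q.d))) ≤ q.t ^ (-((b + 64) * (q.c + q.d))) :=
    Real.rpow_le_rpow_of_exponent_ge ht ht1 (by nlinarith)
  have hth : 0 ≤ EM ^ th := by positivity
  have e1 : lgS q r κ ^ p * (q.t ^ (-(b * (q.c + q.d))) * s * 8 ^ K) ≤
      lgS q r κ ^ (p + 64) * (q.t ^ (-((b + 64) * (q.c + q.d))) * s * 8 ^ K) := by gcongr
  have e2 : lgS q r κ ^ 64 * (q.t ^ (-(64 * (q.c + q.d))) * s * 8 ^ K) ≤
      lgS q r κ ^ (p + 64) * (q.t ^ (-((b + 64) * (q.c + q.d))) * s * 8 ^ K) := by gcongr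
  unfold NE N0E MM
  have e3 := mul_le_mul_of_nonneg_left e1 (by positivity : 0 ≤ X * EM ^ th)
  calc 2 * X * (X * EM ^ th * (lgS q r κ ^ p * (q.t ^ (-(b * (q.c + q.d))) * s * 8 ^ K)) +
        lgS q r κ ^ 64 * (q.t ^ (-(64 * (q.c + q.d))) * s * 8 ^ K)) ≤
      2 * X * (X * EM ^ th *
        (lgS q r κ ^ (p + 64) * (q.t ^ (-((b + 64) * (q.c + q.d))) * s * 8 ^ K)) +
        lgS q r κ ^ (p + 64) * (q.t ^ (-((b + 64) * (q.c + q.d))) * s * 8 ^ K)) := by gcongr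
    _ = _ := by ring

section pairs

variable {ι : Type} [Fintype ι] [DecidableEq ι] {q : H401.Num} {n : ℕ} {ez : ℝ}
  {F1 F2 F3 : ℕ → Pt → ℝ} {o : ℤ} {K : ℕ} {x : Pt} {s r : ℝ} {U : Tri} {g : ℤ → ℤ → ℝ}
  {u v : ℤ → ℤ → ι → ℝ} {A : FamA} {b' C' : FamV ι} {R : Slt ι} {κ E : ℝ} {h : Pt} {j : ℤ}
  {e : Pt} {X : ℝ}

/-- **The three pair sums with one number.** -/
theorem pairs_num {p : ℕ} {th b EM : ℝ} (ht : 0 < q.t) (ht1 : q.t ≤ 1) (hs : 0 < s) (hr : 1 ≤ r)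
    (hκ : 1 ≤ κ) (he0 : 0 ≤ q.e0) (hE : 0 < E) (hEM : 1 ≤ EM) (hE1 : E ≤ EM) (hth : 0 ≤ th)
    (hX : 1 ≤ X) (hez : 0 < ez)
    (HZ : PhiZ ι q n ez F1 F2 F3 o K x s r U g u v A b' C' R κ E h j e X)
    (HX : PhiX ι q n ez F1 F2 F3 o K x s r U g u v A b' C' R κ E h j e X)
    (HC : PhiC ι q n ez F1 F2 F3 o K x s r U g u v A b' C' R κ E h j e X)
    (HN : PhiN p th b ι q n ez F1 F2 F3 o K x s r U g u v A b' C' R κ E h j e X) :
    ∀ t' ∈ rt (cx K x), ∀ (Lb : ℕ) (eb : ι ⊕ ι → ℤ), Function.Injective eb →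
      (∀ i, eb i ∈ lbs Lb) →
    ∃ Λ Es EA EV Z : ℝ, 0 ≤ Λ ∧ 0 ≤ Es ∧ 0 ≤ EA ∧ 0 ≤ EV ∧ 0 ≤ Z ∧
      (∀ z, mE q r E EM th ^ (1 / 4 : ℝ) * tS q s r ≤ z →
        RX (iv K t') (K + Lb) (fun x0 => sL Lb (sG K (cx K x) (-x0) h j e)) (tS q s r) z
          (MB K (cx K x) b' Lb eb h)
          (MC K (cx K x) R (Cz ez C') Lb eb (mE q r E EM th ^ (1 / 4 : ℝ)) h) ≤
        4 ^ Lb * (Λ * (√(z ^ 2 * Es * (tS q s r ^ 2 * EV)) + tS q s r ^ 2 * Es))) ∧
      (∀ z, mE q r E EM th ^ (1 / 4 : ℝ) * tS q s r ≤ z →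
        RX (iv K t') (K + Lb) (fun x0 => sL Lb (sG K (cx K x) (-x0) h j e)) z (tS q s r)
          (MC K (cx K x) R (Cz ez C') Lb eb (mE q r E EM th ^ (1 / 4 : ℝ)) h)
          (MA K (cx K x) A Lb h) ≤
        4 ^ Lb * (Λ * (√(z ^ 2 * Es * (tS q s r ^ 2 * EA)) + tS q s r ^ 2 * Es))) ∧
      (∀ h', 0 < h' → h' ≤ tS q s r →
        RX (iv K t') (K + Lb) (fun x0 => sL Lb (sG K (cx K x) (-x0) h j e)) h' h'
          (MB K (cx K x) b' Lb eb h)
          (MC K (cx K x) R (Cz ez C') Lb eb (mE q r E EM th ^ (1 / 4 : ℝ)) h) ≤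
        4 ^ Lb * (Z * h' ^ 2)) ∧
      EA ≤ NE q s r κ EM th b X p K ∧ Es ≤ NE q s r κ EM th b X p K * √(mE q r E EM th) ∧
      EV * √(mE q r E EM th) ≤ NE q s r κ EM th b X p K ∧
      Z * mE q r E EM th ≤ NE q s r κ EM th b X p K * HH q r κ X ∧
      Λ = X * (1 + Real.log (HH q r κ X / mE q r E EM th)) ^ 3 := by
  intro t' ht' Lb eb hi hm
  have hm0 := mE_pos (q := q) (th := th) ht hr hE hEM
  have hm1 := mE_le ht ht1 hr he0 hE hEM hE1 hth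
  have hN0 := N0E_nonneg (q := q) (s := s) (th := th) (b := b) (p := p) (K := K) ht ht1 hs hr hκ
    hEM hX
  have hM := MM_nonneg (K := K) ht ht1 hs hr hκ
  have hH := HH_one ht ht1 hr hκ hX
  unfold PhiN at HN
  rw [num_eq hE hEM] at HN
  obtain ⟨E1, EA, a1, a2, a3, a4, a5⟩ := HZ hez _ _ hm0 hm1 hN0 HN t' ht' Lb eb hi hm
  obtain ⟨E2, EV, b1, b2, b3, b4, b5⟩ := HX hez _ _ hm0 hm1 hN0 HN t' ht' Lb eb hi hm
  obtain ⟨Z, c1, c2, c3⟩ := HC hez _ _ hm0 hm1 hN0 HN t' ht' Lb eb hi hm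
  have hlog := (log_mono (X := X) (X' := X) ht ht1 hr hκ hX le_rfl hm0 hm1).1
  have hΛ : 0 ≤ X * (1 + Real.log (HH q r κ X / mE q r E EM th)) ^ 3 := by positivity
  have hXN : 0 ≤ X * (N0E q s r κ EM th b X p K + MM q s r κ K) := by positivity
  have hNE : NE q s r κ EM th b X p K =
      2 * (X * (N0E q s r κ EM th b X p K + MM q s r κ K)) := by
    unfold NE
    ring
  have hsm : 0 ≤ √(mE q r E EM th) := Real.sqrt_nonneg _
  refine ⟨_, E1 + E2, EA, EV, Z, hΛ, by linarith, a2, b2, c1, ?_, ?_, c3, ?_, ?_, ?_, ?_, rfl⟩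
  · intro z hz
    refine (b5 z hz).trans ?_
    gcongr
    · linarith
    · linarith
  · intro z hz
    refine (a5 z hz).trans ?_
    gcongr
    · linarith
    · linarith
  · rw [hNE]
    linarith
  · rw [hNE]
    nlinarith
  · rw [hNE]
    linarith
  · rw [hNE]
    have : 0 ≤ X * (N0E q s r κ EM th b X p K + MM q s r κ K) * HH q r κ X := by
      have : 0 ≤ HH q r κ X := by linarith
      positivity
    linarith

end pairs

/-! ### The quantifiers -/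

/-- **`SlotNum` in the form of `H186.PS.PartSp`.** -/
theorem slotNum_PartSp {D : H401.Bun} (H : SlotNum D) : PartSp D PhiN := by
  intro a ha ha1
  obtain ⟨es, hes, hes1, H⟩ := H a ha ha1
  refine ⟨es, hes, hes1, fun e0 he0 he0' => ?_⟩
  obtain ⟨k8s, hk8s, H⟩ := H e0 he0 he0'
  refine ⟨k8s, hk8s, fun k8 hk8 hk8' => ?_⟩
  obtain ⟨k3s, hk3s, H⟩ := H k8 hk8 hk8'
  refine ⟨k3s, hk3s, fun k3 hk3 hk3' => ?_⟩
  obtain ⟨p, th, b, c1, d1, hth, hb, hc1, hd1, H⟩ := H k3 hk3 hk3'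
  refine ⟨p, th, b, hth, hb, c1, d1, hc1, hd1,
    fun c hc hcc d hd hdd Kt e cP L hK he hcP hL CD hCD => ?_⟩
  obtain ⟨C, hC, H⟩ := H c hc hcc d hd hdd Kt e cP L hK he hcP hL CD hCD
  refine ⟨max C 1, le_max_right _ _, ?_⟩
  intro t ht ht1 n ez F1 F2 F3 h1 h3 h2 o ho K hKn x ι _ _ s r U g u v hs hr hcls A b' C' hD
    R κ E hκ hE hEL hsl h hh j hj q hq
  have hnum := H t ht ht1 n ez F1 F2 F3 h1 h3 h2 o ho K hKn x ι s r U g u v hs hr hcls
    A b' C' hD R κ E hκ hE hEL hsl h hh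
  unfold PhiN lgS
  have hez : 0 ≤ ez := h2.1.trans' (by positivity)
  refine hnum.mono ?_
  have hr0 : 0 < r := by linarith
  have l0 : 0 ≤ 1 + Real.log κ + Real.log (r / t) := by
    have e1 := Real.log_nonneg hκ
    have e2 : 0 ≤ Real.log (r / t) := Real.log_nonneg (by
      rw [le_div_iff₀ ht]
      linarith)
    linarith
  refine mul_le_mul_of_nonneg_right (le_max_left _ _) ?_
  show 0 ≤ (1 + Real.log κ + Real.log (r / t)) ^ p * E ^ th *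
    ((t / r) ^ (e0 / 2) * t ^ (-(b * (c + d))) * (ez * s) * 8 ^ K)
  positivity

end

end Vale.Agent.P141.H277.Phi
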