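import Vale.Agent.P141.H277.NumBG
import Vale.Agent.P141.H972.NumQ

/-!
# P141, line A, flow part: from the statements about one slot to the node forms

* `ImpQ Ψ Φ` : at one slot, the statement `Ψ` and the numbers `NumX` of the slot give the node form
  `Φ`; `impQ_PCA`, `impQ_PBC`, `impQ_PZB`;
* `numQ_of`, `numQ_PCA`, `numQ_PBC`, `numQ_PZB` : `PartS D Ψ → SlotNum D → NumQ D Φ`;
* `MM16_le` : the masses with the power `16`.
-/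

namespace Vale.Agent.P141.H277.Phi

open Finset Matrix
open Vale.Agent.P141.PL (Pt iv hs ix mem_iv ix_ix cb mem_cb cx card_iv)
open Vale.Agent.P141.PL.H315 (Tri)
open Vale.Agent.P141.H958 (lbs)
open Vale.Agent.P141.H581 (RX)
open Vale.Agent.P141.H747 (sL sG MA MB MC)
open Vale.Agent.P141.H677 Vale.Agent.P141.H677.Sk
open Vale.Agent.P141.H186.PS
open Vale.Agent.P141.H401 (Bun)
open Vale.Agent.P141.H972 (StP PCA PBC PZB NumQ)

noncomputable section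

open scoped Classical

set_option linter.unusedVariables false

theorem MM16_le {q : H401.Num} {s r κ : ℝ} {K : ℕ} (ht : 0 < q.t) (ht1 : q.t ≤ 1)
    (hc : 0 ≤ q.c) (hd : 0 ≤ q.d) (hs : 0 < s) (hr : 1 ≤ r) (hκ : 1 ≤ κ) :
    lgS q r κ ^ 16 * (q.t ^ (-(16 * (q.c + q.d))) * s * 8 ^ K) ≤ MM q s r κ K := by
  have h1 := lgS_one ht ht1 hr hκ
  have hcd : 0 ≤ q.c + q.d := by linarith
  have hp1 : lgS q r κ ^ 16 ≤ lgS q r κ ^ 64 := pow_le_pow_right₀ h1 (by omega)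
  have ht2 : q.t ^ (-(16 * (q.c + q.d))) ≤ q.t ^ (-(64 * (q.c + q.d))) :=
    Real.rpow_le_rpow_of_exponent_ge ht ht1 (by nlinarith)
  unfold MM
  gcongr

theorem Cz_one {ι : Type} (C : FamV ι) : Cz 1 C = C := by
  funext x0 k z x
  simp [Cz]

theorem tS_eq {q : H401.Num} {s r : ℝ} (ht : 0 < q.t) (hs : 0 < s) (hr : 1 ≤ r) :
    tS q s r = 2 * q.th s r := by
  have h1 := H401.Num.th_pos (p := q) ht hs hr
  unfold tS
  rw [show 4 * q.th s r ^ 2 = (2 * q.th s r) ^ 2 by ring, Real.sqrt_sq (by positivity)]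

/-- at one slot, `Ψ` and the numbers of the slot give `Φ` -/
def ImpQ (Ψ : SlotSt) (Φ : StP) : Prop :=
  ∀ (ι : Type) [Fintype ι] [DecidableEq ι] (q : H401.Num) (n : ℕ)
    (F1 F2 F3 : ℕ → Pt → ℝ) (o : ℤ) (K : ℕ) (x : Pt) (s r : ℝ) (U : Tri) (g : ℤ → ℤ → ℝ)
    (u v : ℤ → ℤ → ι → ℝ) (A : FamA) (b C : FamV ι) (R : Slt ι) (κ E : ℝ) (h : Pt) (j : ℤ)
    (e : Pt) (X m N0 C0 H N : ℝ), 0 < q.t → q.t ≤ 1 → 0 < s → 1 ≤ r → 1 ≤ κ → 1 ≤ X →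
    0 < m → m ≤ 1 → 0 ≤ N0 → NumX K (cx K x) R C h (N0 * (1 * m)) →
    X ≤ C0 → HH q r κ X ≤ H → X * (N0 + MM q s r κ K) ≤ N →
    Ψ ι q n 1 F1 F2 F3 o K x s r U g u v A b C R κ E h j e X →
    ∀ t' ∈ rt (cx K x), ∀ (Lb : ℕ) (eb : ι ⊕ ι → ℤ), Function.Injective eb →
      (∀ i, eb i ∈ lbs Lb) →
    Φ ι K (cx K x) R A b C Lb eb h j e t' (2 * q.th s r) m C0 H N

/-- the logarithm with larger numbers -/
theorem cube_le {q : H401.Num} {r κ X C0 H m : ℝ} (ht : 0 < q.t) (ht1 : q.t ≤ 1) (hr : 1 ≤ r)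
    (hκ : 1 ≤ κ) (hX : 1 ≤ X) (hXC : X ≤ C0) (hH : HH q r κ X ≤ H) (hm : 0 < m) (hm1 : m ≤ 1) :
    0 ≤ X * (1 + Real.log (HH q r κ X / m)) ^ 3 ∧
      X * (1 + Real.log (HH q r κ X / m)) ^ 3 ≤ C0 * (1 + Real.log (H / m)) ^ 3 := by
  have h1 := HH_one ht ht1 hr hκ hX
  refine ⟨?_, H972.log_mono3 hm hm1 hX hXC h1 hH⟩
  have h2 := (log_mono (X := X) (X' := X) ht ht1 hr hκ hX le_rfl hm hm1).1
  positivity

theorem impQ_PCA : ImpQ PhiZ PCA := by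
  intro ι _ _ q n F1 F2 F3 o K x s r U g u v A b C R κ E h j e X m N0 C0 H N ht ht1 hs hr hκ hX
    hm hm1 hN0 hnum hXC hH hN HΨ t' ht' Lb eb hi he
  obtain ⟨Es, EA, a1, a2, a3, a4, a5⟩ := HΨ one_pos m N0 hm hm1 hN0 hnum t' ht' Lb eb hi he
  obtain ⟨c1, c2⟩ := cube_le (m := m) ht ht1 hr hκ hX hXC hH hm hm1
  rw [tS_eq ht hs hr, Cz_one] at a5
  exact ⟨_, Es, EA, c1, a1, a2, c2, a3.trans (mul_le_mul_of_nonneg_right hN (Real.sqrt_nonneg _)),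
    a4.trans hN, a5⟩

theorem impQ_PBC : ImpQ PhiX PBC := by
  intro ι _ _ q n F1 F2 F3 o K x s r U g u v A b C R κ E h j e X m N0 C0 H N ht ht1 hs hr hκ hX
    hm hm1 hN0 hnum hXC hH hN HΨ t' ht' Lb eb hi he
  obtain ⟨Es, EV, a1, a2, a3, a4, a5⟩ := HΨ one_pos m N0 hm hm1 hN0 hnum t' ht' Lb eb hi he
  obtain ⟨c1, c2⟩ := cube_le (m := m) ht ht1 hr hκ hX hXC hH hm hm1
  rw [tS_eq ht hs hr, Cz_one] at a5
  exact ⟨_, Es, EV, c1, a1, a2, c2, a3.trans (mul_le_mul_of_nonneg_right hN (Real.sqrt_nonneg _)),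
    a4.trans hN, a5⟩

theorem impQ_PZB : ImpQ PhiC PZB := by
  intro ι _ _ q n F1 F2 F3 o K x s r U g u v A b C R κ E h j e X m N0 C0 H N ht ht1 hs hr hκ hX
    hm hm1 hN0 hnum hXC hH hN HΨ t' ht' Lb eb hi he
  obtain ⟨Z, a1, a2, a3⟩ := HΨ one_pos m N0 hm hm1 hN0 hnum t' ht' Lb eb hi he
  rw [tS_eq ht hs hr, Cz_one] at a3
  have h1 := HH_one ht ht1 hr hκ hX
  have h2 := MM_nonneg (K := K) ht ht1 hs hr hκ
  have h3 : 0 ≤ X * (N0 + MM q s r κ K) := by positivity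
  refine ⟨Z, a1, a2.trans ?_, a3⟩
  exact mul_le_mul hN hH (by linarith) (by linarith)

/-! ### The scalars -/

/-- the number of the slot against the energy `m` -/
theorem num_le {q : H401.Num} {s r κ E EM th th0 b C : ℝ} {p K : ℕ} (ht : 0 < q.t)
    (ht1 : q.t ≤ 1) (hs : 0 < s) (hr : 1 ≤ r) (hκ : 1 ≤ κ) (hE : 0 < E) (hEM : 1 ≤ EM)
    (hE1 : E ≤ EM) (hth : th ≤ th0) (hC : 0 ≤ C) :
    C * (lgS q r κ ^ p * E ^ th0 *
      ((q.t / r) ^ (q.e0 / 2) * q.t ^ (-(b * (q.c + q.d))) * (1 * s) * 8 ^ K)) ≤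
    N0E q s r κ EM th0 b C p K * (1 * mE q r E EM th) := by
  have hEM0 : 0 < EM := by linarith
  have hr0 : 0 < r := by linarith
  have h1 := lgS_one ht ht1 hr hκ
  have h2 : E ^ th0 ≤ EM ^ th0 * (E / EM) ^ th := by
    have e1 : E ^ th0 = EM ^ th0 * (E / EM) ^ th0 := by
      rw [← Real.mul_rpow hEM0.le (by positivity), mul_div_cancel₀ _ hEM0.ne']
    rw [e1]
    refine mul_le_mul_of_nonneg_left ?_ (by positivity)
    refine Real.rpow_le_rpow_of_exponent_ge (by positivity) ?_ hth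
    rw [div_le_iff₀ hEM0]
    linarith
  have h3 : 0 ≤ (q.t / r) ^ (q.e0 / 2) * q.t ^ (-(b * (q.c + q.d))) * (1 * s) * 8 ^ K := by
    positivity
  unfold N0E mE
  calc C * (lgS q r κ ^ p * E ^ th0 *
        ((q.t / r) ^ (q.e0 / 2) * q.t ^ (-(b * (q.c + q.d))) * (1 * s) * 8 ^ K)) ≤
      C * (lgS q r κ ^ p * (EM ^ th0 * (E / EM) ^ th) *
        ((q.t / r) ^ (q.e0 / 2) * q.t ^ (-(b * (q.c + q.d))) * (1 * s) * 8 ^ K)) := by gcongr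
    _ = _ := by ring

/-- the number of the node forms -/
theorem NQ_le {q : H401.Num} {s r κ EM th b C X : ℝ} {p K : ℕ} (ht : 0 < q.t) (ht1 : q.t ≤ 1)
    (hc : 0 ≤ q.c) (hd : 0 ≤ q.d) (hs : 0 < s) (hr : 1 ≤ r) (hκ : 1 ≤ κ) (hEM : 1 ≤ EM)
    (hb : 0 ≤ b) (hC : 0 ≤ C) (hX : 1 ≤ X) :
    X * (N0E q s r κ EM th b C p K + MM q s r κ K) ≤ X * (C * EM ^ th + 1) *
      (lgS q r κ ^ (p + 64) * (q.t ^ (-((b + 64) * (q.c + q.d))) * s * 8 ^ K)) := by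
  have h1 := lgS_one ht ht1 hr hκ
  have hEM0 : 0 < EM := by linarith
  have hX0 : 0 < X := by linarith
  have hcd : 0 ≤ q.c + q.d := by linarith
  have hp1 : lgS q r κ ^ p ≤ lgS q r κ ^ (p + 64) := pow_le_pow_right₀ h1 (by omega)
  have hp2 : lgS q r κ ^ 64 ≤ lgS q r κ ^ (p + 64) := pow_le_pow_right₀ h1 (by omega)
  have ht2 : q.t ^ (-(b * (q.c + q.d))) ≤ q.t ^ (-((b + 64) * (q.c + q.d))) :=
    Real.rpow_le_rpow_of_exponent_ge ht ht1 (by nlinarith)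
  have ht3 : q.t ^ (-(64 * (q.c + q.d))) ≤ q.t ^ (-((b + 64) * (q.c + q.d))) :=
    Real.rpow_le_rpow_of_exponent_ge ht ht1 (by nlinarith)
  have e1 : lgS q r κ ^ p * (q.t ^ (-(b * (q.c + q.d))) * s * 8 ^ K) ≤
      lgS q r κ ^ (p + 64) * (q.t ^ (-((b + 64) * (q.c + q.d))) * s * 8 ^ K) := by gcongr
  have e2 : lgS q r κ ^ 64 * (q.t ^ (-(64 * (q.c + q.d))) * s * 8 ^ K) ≤
      lgS q r κ ^ (p + 64) * (q.t ^ (-((b + 64) * (q.c + q.d))) * s * 8 ^ K) := by gcongr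
  unfold N0E MM
  calc X * (C * EM ^ th * (lgS q r κ ^ p * (q.t ^ (-(b * (q.c + q.d))) * s * 8 ^ K)) +
        lgS q r κ ^ 64 * (q.t ^ (-(64 * (q.c + q.d))) * s * 8 ^ K)) ≤
      X * (C * EM ^ th *
        (lgS q r κ ^ (p + 64) * (q.t ^ (-((b + 64) * (q.c + q.d))) * s * 8 ^ K)) +
        lgS q r κ ^ (p + 64) * (q.t ^ (-((b + 64) * (q.c + q.d))) * s * 8 ^ K)) := by gcongr
    _ = _ := by ring

/-- the height of the node forms -/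
theorem HH_le {q : H401.Num} {r κ X C0 : ℝ} (ht : 0 < q.t) (ht1 : q.t ≤ 1) (hr : 1 ≤ r)
    (hκ : 1 ≤ κ) (hX : 1 ≤ X) (hXC : X ≤ C0) :
    HH q r κ X ≤ (C0 * κ * (r / q.t)) ^ ⌈X⌉₊ := by
  have hρ : 1 ≤ r / q.t := by
    rw [le_div_iff₀ ht]
    linarith
  exact (H972.H_le (κ := κ) hX hXC hκ hρ (le_refl ⌈X⌉₊)).2

/-! ### The quantifiers -/

/-- **From a statement about one slot to a node form.** -/
theorem numQ_of {D : Bun} {Ψ : SlotSt} {Φ : StP} (i : ImpQ Ψ Φ) (H1 : PartS D Ψ)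
    (H2 : SlotNum D) : NumQ D Φ := by
  intro a ha ha1
  obtain ⟨es1, hes1, hes11, H1⟩ := H1 a ha ha1
  obtain ⟨es2, hes2, hes21, H2⟩ := H2 a ha ha1
  refine ⟨min es1 es2, lt_min hes1 hes2, (min_le_left _ _).trans hes11, fun e0 he0 he0' => ?_⟩
  obtain ⟨k81, hk81, H1⟩ := H1 e0 he0 (he0'.trans (min_le_left _ _))
  obtain ⟨k82, hk82, H2⟩ := H2 e0 he0 (he0'.trans (min_le_right _ _))
  refine ⟨min k81 k82, lt_min hk81 hk82, fun k8 hk8 hk8' => ?_⟩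
  obtain ⟨k31, hk31, H1⟩ := H1 k8 hk8 (hk8'.trans (min_le_left _ _))
  obtain ⟨k32, hk32, H2⟩ := H2 k8 hk8 (hk8'.trans (min_le_right _ _))
  refine ⟨min k31 k32, lt_min hk31 hk32, fun k3 hk3 hk3' => ?_⟩
  obtain ⟨c1, d1, hc1, hd1, H1⟩ := H1 k3 hk3 (hk3'.trans (min_le_left _ _))
  obtain ⟨p, th0, b, c2, d2, hth0, hb, hc2, hd2, H2⟩ := H2 k3 hk3 (hk3'.trans (min_le_right _ _))
  refine ⟨th0, hth0, fun th hth hth' => ⟨p + 64, b + 64, min c1 c2, min d1 d2, by linarith,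
    lt_min hc1 hc2, lt_min hd1 hd2, fun c hc hcc d hd hdd Kt e cP L hK he hcP hL CD hCD => ?_⟩⟩
  obtain ⟨X, hX, H1⟩ := H1 c hc (hcc.trans (min_le_left _ _)) d hd (hdd.trans (min_le_left _ _))
    Kt e cP L hK he hcP hL CD hCD
  obtain ⟨C, hC, H2⟩ := H2 c hc (hcc.trans (min_le_right _ _)) d hd
    (hdd.trans (min_le_right _ _)) Kt e cP L hK he hcP hL CD hCD
  have hEM : 1 ≤ L + 3780000 := by linarith
  have hEM0 : 0 < L + 3780000 := by linarith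
  have hp : 0 ≤ C * (L + 3780000) ^ th0 := by positivity
  have hXC : X ≤ X * (C * (L + 3780000) ^ th0 + 1) := by nlinarith
  refine ⟨⌈X⌉₊, X * (C * (L + 3780000) ^ th0 + 1), hX.trans hXC, ?_⟩
  intro t ht ht1 n F1 F2 F3 h1 h3 h2 o ho K hKn x ι _ _ s r U g u v hs hr hcls A b' C' hD R κ E hκ
    hE hEL hsl h hh j hj q hq t' ht' Lb eb heb hlb
  have hΨ := H1 t ht ht1 n 1 F1 F2 F3 h1 h3 h2 o ho K hKn x ι s r U g u v hs hr hcls A b' C' hD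
    R κ E hκ hE hEL hsl h hh j hj q hq
  have hnum := H2 t ht ht1 n 1 F1 F2 F3 h1 h3 h2 o ho K hKn x ι s r U g u v hs hr hcls A b' C' hD
    R κ E hκ hE hEL hsl h hh
  have hm0 := mE_pos (q := ⟨a, e0, k8, k3, c, d, Kt, e, cP, L, CD, t⟩) (th := th) ht hr hE hEM
  have hm1 := mE_le (q := ⟨a, e0, k8, k3, c, d, Kt, e, cP, L, CD, t⟩) ht ht1 hr he0.le hE hEM hEL
    hth.le
  have hn := num_le (q := ⟨a, e0, k8, k3, c, d, Kt, e, cP, L, CD, t⟩) (b := b) (p := p) (K := K)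
    ht ht1 hs hr hκ hE hEM hEL hth' hC
  have hN0 : 0 ≤ N0E ⟨a, e0, k8, k3, c, d, Kt, e, cP, L, CD, t⟩ s r κ (L + 3780000) th0 b C p K := by
    have h1 := lgS_one (q := ⟨a, e0, k8, k3, c, d, Kt, e, cP, L, CD, t⟩) ht ht1 hr hκ
    unfold N0E
    positivity
  exact i ι ⟨a, e0, k8, k3, c, d, Kt, e, cP, L, CD, t⟩ n F1 F2 F3 o K x s r U g u v A b' C' R κ E
    h j q X _ _ _ _ _ ht ht1 hs hr hκ hX hm0 hm1 hN0 (hnum.mono hn) hXC
    (HH_le ht ht1 hr hκ hX hXC) (NQ_le ht ht1 hc hd.le hs hr hκ hEM hb hC hX) hΨ t' ht' Lb eb heb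
    hlb

/-- **The pair `(C~, A)`.** -/
theorem numQ_PCA {D : Bun} (H1 : PartS D PhiZ) (H2 : SlotNum D) : NumQ D PCA :=
  numQ_of impQ_PCA H1 H2

/-- **The pair `(b, C~)`.** -/
theorem numQ_PBC {D : Bun} (H1 : PartS D PhiX) (H2 : SlotNum D) : NumQ D PBC :=
  numQ_of impQ_PBC H1 H2

/-- **The pair `(b, C~)` at equal levels.** -/
theorem numQ_PZB {D : Bun} (H1 : PartS D PhiC) (H2 : SlotNum D) : NumQ D PZB :=
  numQ_of impQ_PZB H1 H2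

end

end Vale.Agent.P141.H277.Phi
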